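import Vale.Agent.P281.H603.K.Proper
import Vale.Agent.P281.MF.Hol

/-!
# P281, theorem T-K (helper603): basic facts on sheets, dimension `d`; the maximum principle
-/

open Set Filter Metric MeasureTheory
open scoped Topology ContDiff ComplexConjugate

noncomputable section

namespace Vale.Agent.P281.H603.K

open Vale.Agent.P281.H64.TK
open Vale.Agent.P281.H64 (Cm Mark)

variable {d : ℕ} {E Γ : Type} [TopologicalSpace E] [Group Γ] [MulAction Γ E]

namespace Sh

variable (S : Sheets d E Γ)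

theorem contAt (i : Fin S.N) {z : Cm d} (hz : z ∈ ball (0 : Cm d) 3) : ContinuousAt (S.σ i) z :=
  (S.map_nhds i z hz).le

theorem contOn (i : Fin S.N) : ContinuousOn (S.σ i) (ball 0 3) :=
  fun _ hz => (contAt S i hz).continuousWithinAt

theorem injOn (i : Fin S.N) : InjOn (S.σ i) (ball 0 3) := fun z hz w hw h =>
  (S.inj i z hz w hw 1 (by rw [one_smul, h])).2

theorem isOpen_image (i : Fin S.N) {U : Set (Cm d)} (hU : IsOpen U) (hs : U ⊆ ball 0 3) :
    IsOpen (S.σ i '' U) := by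
  rw [isOpen_iff_mem_nhds]
  rintro _ ⟨z, hz, rfl⟩
  rw [← S.map_nhds i z (hs hz)]
  exact image_mem_map (hU.mem_nhds hz)

theorem sub3 {z : Cm d} {r : ℝ} (hr : r ≤ 3) (h : z ∈ ball (0 : Cm d) r) :
    z ∈ ball (0 : Cm d) 3 :=
  ball_subset_ball hr h

theorem mem3 {z : Cm d} (h : ‖z‖ < 1) : z ∈ ball (0 : Cm d) 3 := by
  rw [mem_ball_zero_iff]
  linarith

theorem mem3' {z : Cm d} {r : ℝ} (hr : r < 3) (h : ‖z‖ ≤ r) : z ∈ ball (0 : Cm d) 3 := by
  rw [mem_ball_zero_iff]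
  linarith

include S in
/-- `Γ` acts freely. -/
theorem free {γ : Γ} {e : E} (h : γ • e = e) : γ = 1 := by
  obtain ⟨γ', i, z, hz, rfl⟩ := S.cover e
  have h1 : (γ'⁻¹ * γ * γ') • S.σ i z = S.σ i z := by
    rw [mul_smul, mul_smul, h, inv_smul_smul]
  have h2 := (S.inj i z (mem3 hz) z (mem3 hz) _ h1).1
  have h3 : γ = γ' * (γ'⁻¹ * γ * γ') * γ'⁻¹ := by group
  rw [h3, h2]
  group

include S in
theorem eq_of_smul_eq {γ γ' : Γ} {e : E} (h : γ • e = γ' • e) : γ = γ' := by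
  have h1 : (γ'⁻¹ * γ) • e = e := by rw [mul_smul, h, inv_smul_smul]
  have h2 := free S h1
  rw [inv_mul_eq_one] at h2
  exact h2.symm

section
variable [ContinuousConstSMul Γ E]

theorem map_nhds_smul (γ : Γ) (i : Fin S.N) {z : Cm d} (hz : z ∈ ball (0 : Cm d) 3) :
    Filter.map (fun u => γ • S.σ i u) (𝓝 z) = 𝓝 (γ • S.σ i z) := by
  have h1 : (fun u => γ • S.σ i u) = (fun e : E => γ • e) ∘ S.σ i := rfl
  rw [h1, ← Filter.map_map, S.map_nhds i z hz]
  exact (Homeomorph.smul γ).map_nhds_eq _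

theorem contAt_smul (γ : Γ) (i : Fin S.N) {z : Cm d} (hz : z ∈ ball (0 : Cm d) 3) :
    ContinuousAt (fun u => γ • S.σ i u) z := (map_nhds_smul S γ i hz).le

theorem isOpen_image_smul (γ : Γ) (i : Fin S.N) {U : Set (Cm d)} (hU : IsOpen U)
    (hs : U ⊆ ball 0 3) : IsOpen ((fun u => γ • S.σ i u) '' U) := by
  rw [isOpen_iff_mem_nhds]
  rintro _ ⟨z, hz, rfl⟩
  rw [← map_nhds_smul S γ i (hs hz)]
  exact image_mem_map (hU.mem_nhds hz)

end

/-- transition maps between arbitrary sheets -/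
theorem trans {i j : Fin S.N} {z w : Cm d} {γ γ' : Γ} (hz : z ∈ ball (0 : Cm d) 3)
    (hw : w ∈ ball (0 : Cm d) 3) (h : γ • S.σ i z = γ' • S.σ j w) : ∃ θ : Cm d → Cm d,
      AnalyticAt ℂ θ z ∧ θ z = w ∧ ∀ᶠ u in 𝓝 z, γ • S.σ i u = γ' • S.σ j (θ u) := by
  have h0 : S.σ i z = (γ⁻¹ * γ') • S.σ j w := by rw [mul_smul, ← h, inv_smul_smul]
  obtain ⟨θ, h1, h2, h3⟩ := S.hol i j z hz w hw _ h0
  refine ⟨θ, h1, h2, ?_⟩
  filter_upwards [h3] with u hu
  rw [hu, mul_smul, smul_inv_smul]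

end Sh

section
variable {S : Sheets d E Γ} {h : E → ℂ} {c : Γ → ℂ}

theorem add_analyticAt (H : Add S h c) (i : Fin S.N) {z : Cm d} (hz : z ∈ ball (0 : Cm d) 3) :
    AnalyticAt ℂ (fun z => h (S.σ i z)) z :=
  MF.analyticAt_of_differentiableOn isOpen_ball (H.hol i) hz

theorem add_analyticAt_smul (H : Add S h c) (γ : Γ) (i : Fin S.N) {z : Cm d}
    (hz : z ∈ ball (0 : Cm d) 3) : AnalyticAt ℂ (fun z => h (γ • S.σ i z)) z := by
  have h1 : (fun z => h (γ • S.σ i z)) = fun z => h (S.σ i z) + c γ := by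
    funext z
    rw [H.add]
  rw [h1]
  exact (add_analyticAt H i hz).add analyticAt_const

/-- Identity theorem. -/
theorem const_of_eventually [ContinuousConstSMul Γ E] [PreconnectedSpace E] (H : Add S h c)
    {e₀ : E} {a : ℂ} (h0 : ∀ᶠ e in 𝓝 e₀, h e = a) (e : E) : h e = a := by
  set A : Set E := {e | ∀ᶠ e' in 𝓝 e, h e' = a} with hA
  have hopen : IsOpen A := by
    rw [isOpen_iff_mem_nhds]
    intro e he
    exact eventually_eventually_nhds.2 he
  have hclosed : IsClosed A := by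
    rw [← isOpen_compl_iff, isOpen_iff_mem_nhds]
    intro e he
    obtain ⟨γ, i, z, hz, rfl⟩ := S.cover e
    have hz3 : z ∈ ball (0 : Cm d) 3 := Sh.mem3 hz
    rw [← Sh.map_nhds_smul S γ i hz3]
    rw [Filter.mem_map]
    filter_upwards [isOpen_ball.mem_nhds hz3] with u hu hcon
    refine he ?_
    have h1 : AnalyticOnNhd ℂ (fun z => h (γ • S.σ i z)) (ball 0 3) :=
      fun u hu => add_analyticAt_smul H γ i hu
    have h2 : (fun z => h (γ • S.σ i z)) =ᶠ[𝓝 u] fun _ => a := by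
      have h3 : ∀ᶠ e' in 𝓝 (γ • S.σ i u), h e' = a := hcon
      rw [← Sh.map_nhds_smul S γ i hu, eventually_map] at h3
      exact h3
    have h3 := h1.eqOn_of_preconnected_of_eventuallyEq (g := fun _ => a)
      (fun _ _ => analyticAt_const) (convex_ball (0 : Cm d) 3).isPreconnected hu h2
    show ∀ᶠ e' in 𝓝 (γ • S.σ i z), h e' = a
    rw [← Sh.map_nhds_smul S γ i hz3, eventually_map]
    filter_upwards [isOpen_ball.mem_nhds hz3] with v hv using h3 hv
  have huniv : A = univ := IsClopen.eq_univ ⟨hclosed, hopen⟩ ⟨e₀, h0⟩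
  have he : e ∈ A := huniv ▸ mem_univ e
  exact Eventually.self_of_nhds (p := fun e' => h e' = a) he

/-- **Maximum principle** -/
theorem unique_of_re [ContinuousConstSMul Γ E] [PreconnectedSpace E] (S : Sheets d E Γ)
    {h : E → ℂ} {c : Γ → ℂ} (H : Add S h c) (hc : ∀ γ, (c γ).re = 0) (e e' : E) : h e = h e' := by
  -- the maximum of `Re h`
  have hR : ∀ (γ : Γ) e, (h (γ • e)).re = (h e).re := fun γ e => by
    rw [H.add, Complex.add_re, hc, add_zero]
  obtain ⟨i₀, z₀, hz₀, hmax⟩ : ∃ (i₀ : Fin S.N) (z₀ : Cm d), ‖z₀‖ ≤ 1 ∧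
      ∀ e, (h e).re ≤ (h (S.σ i₀ z₀)).re := by
    have hsub : closedBall (0 : Cm d) 1 ⊆ ball 0 3 := closedBall_subset_ball (by norm_num)
    have h1 : ∀ i : Fin S.N, ∃ z : Cm d, ‖z‖ ≤ 1 ∧ ∀ w : Cm d, ‖w‖ ≤ 1 →
        (h (S.σ i w)).re ≤ (h (S.σ i z)).re := by
      intro i
      have hcont : ContinuousOn (fun z => (h (S.σ i z)).re) (closedBall 0 1) :=
        Complex.continuous_re.comp_continuousOn ((H.hol i).continuousOn.mono hsub)
      obtain ⟨z, hz, hm⟩ := (isCompact_closedBall (0 : Cm d) 1).exists_isMaxOn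
        ⟨0, mem_closedBall_self (by norm_num)⟩ hcont
      exact ⟨z, mem_closedBall_zero_iff.1 hz, fun w hw => hm (mem_closedBall_zero_iff.2 hw)⟩
    choose zz hz1 hz2 using h1
    obtain ⟨γ, i, z, hz, -⟩ := S.cover e
    obtain ⟨i₀, -, hi₀⟩ := Finset.exists_max_image Finset.univ
      (fun i => (h (S.σ i (zz i))).re) ⟨i, Finset.mem_univ i⟩
    refine ⟨i₀, zz i₀, hz1 i₀, fun e => ?_⟩
    obtain ⟨γ, j, w, hw, rfl⟩ := S.cover e
    rw [hR]
    exact (hz2 j w hw.le).trans (hi₀ j (Finset.mem_univ j))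
  have hz3 : z₀ ∈ ball (0 : Cm d) 3 := Sh.mem3' (by norm_num) hz₀
  -- `exp h` is constant near the maximum
  set f : Cm d → ℂ := fun z => h (S.σ i₀ z) with hf
  have hfa : ∀ z ∈ ball (0 : Cm d) 3, DifferentiableAt ℂ f z := fun z hz =>
    (H.hol i₀).differentiableAt (isOpen_ball.mem_nhds hz)
  have hexp : ∀ᶠ y in 𝓝 z₀, Complex.exp (f y) = Complex.exp (f z₀) := by
    refine Complex.eventually_eq_of_isLocalMax_norm (f := fun z => Complex.exp (f z)) ?_ ?_
    · filter_upwards [isOpen_ball.mem_nhds hz3] with y hy using (hfa y hy).cexp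
    · refine Eventually.of_forall fun y => ?_
      simp only [Function.comp_apply, Complex.norm_exp]
      exact Real.exp_le_exp.2 (hmax _)
  have hclose : ∀ᶠ y in 𝓝 z₀, ‖f y - f z₀‖ < 1 := by
    have h1 : Tendsto (fun y => f y - f z₀) (𝓝 z₀) (𝓝 0) := by
      have := ((hfa z₀ hz3).continuousAt.tendsto).sub_const (f z₀)
      rwa [sub_self] at this
    have h2 := h1.norm
    rw [norm_zero] at h2
    exact h2.eventually (gt_mem_nhds one_pos)
  have h0 : ∀ᶠ e in 𝓝 (S.σ i₀ z₀), h e = f z₀ := by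
    rw [← S.map_nhds i₀ z₀ hz3, eventually_map]
    filter_upwards [hexp, hclose] with y h1 h2
    show f y = f z₀
    obtain ⟨n, hn⟩ := Complex.exp_eq_exp_iff_exists_int.1 h1
    have h3 : f y - f z₀ = n * (2 * Real.pi * Complex.I) := by
      rw [hn]
      ring
    rw [h3, norm_mul] at h2
    have h4 : ‖(2 * (Real.pi : ℂ) * Complex.I)‖ = 2 * Real.pi := by
      rw [norm_mul, norm_mul, Complex.norm_I, mul_one, Complex.norm_real,
        Real.norm_of_nonneg Real.pi_pos.le]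
      norm_num
    rw [h4, Complex.norm_intCast] at h2
    have h5 : n = 0 := by
      by_contra h6
      have h7 : (1 : ℝ) ≤ |(n : ℝ)| := by
        rw [← Int.cast_abs]
        exact_mod_cast Int.one_le_abs h6
      nlinarith [Real.pi_gt_three]
    rw [hn, h5]
    simp
  rw [const_of_eventually H h0 e, const_of_eventually H h0 e']

end

end Vale.Agent.P281.H603.K
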