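import Vale.Agent.P281.H308.Bir.Inv

/-!
# P281, project T-KN, block KN3 (helper603): modifications, without compactness
-/

open scoped Manifold ContDiff Topology
open Set Filter Metric

set_option linter.unusedSectionVars false

noncomputable section

namespace Vale.Agent.P281.H603.KodN

open Vale.Agent.P281 Vale.Agent.P281.H64 Vale.Agent.P281.H64.Gen Vale.Agent.P281.ISO
  Vale.Agent.P281.H713 Vale.Agent.P281.H308.Bir

variable {n : ℕ} {X X₁ : Type} [TopologicalSpace X] [ChartedSpace (Cm n) X]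
  [TopologicalSpace X₁] [ChartedSpace (Cm n) X₁]

theorem notMem_exc {u : X₁ → X} {z : X₁} :
    z ∉ excSet (Cm n) u ↔ Function.Bijective (dM (Cm n) (Cm n) u z) := by
  show ¬ ¬ _ ↔ _
  rw [not_not]
  rfl

variable [IsManifold 𝓘(ℂ, Cm n) ω X] [IsManifold 𝓘(ℂ, Cm n) ω X₁]

/-- the exceptional set is locally given by one equation -/
theorem exc_local {u : X₁ → X} {z₀ : X₁} (hu : ∀ z, HolM (Cm n) (Cm n) u z) :
    ∃ R : X₁ → ℂ, HolV (Cm n) R z₀ ∧ ∀ᶠ z in 𝓝 z₀, (z ∈ excSet (Cm n) u ↔ R z = 0) := by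
  have hφ : HolV (Cm n) (fun w => (chartAt (Cm n) (u z₀) : X → Cm n) (u w)) z₀ :=
    HolV.comp (h := (chartAt (Cm n) (u z₀) : X → Cm n)) (HolV.chart (mem_chart_source _ _)) (hu z₀)
  obtain ⟨R, hR, hRe⟩ := H76.jac_local hφ
  refine ⟨R, hR, ?_⟩
  filter_upwards [hRe, H76.jac_comp (hu z₀), H76.jac_chart_ev (E := Cm n) z₀,
    (hu z₀).continuousAt.eventually ((chartAt (Cm n) (u z₀)).open_source.mem_nhds
      (mem_chart_source _ _))] with z h1 h2 h3 h4
  have h5 : jac (Cm n) (chartAt (Cm n) (u z₀) : X → Cm n) (u z) ≠ 0 := jac_chart_ne_zero h4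
  rw [h2] at h1
  constructor
  · intro hz
    by_contra hR0
    refine hz ?_
    refine bij_of_det_ne (A := dM (Cm n) (Cm n) u z) fun h0 => ?_
    rw [h0, mul_zero] at h1
    exact mul_ne_zero hR0 h3 h1.symm
  · intro hR0
    by_contra hz
    have h6 := det_ne_of_bij (notMem_exc.1 hz)
    rw [hR0, zero_mul] at h1
    exact mul_ne_zero h5 h6 h1

/-- A proper modification `u`. -/
structure Mod0 (u : X₁ → X) : Prop where
  hol : ∀ z, HolM (Cm n) (Cm n) u z
  closed : IsClosedMap u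
  surj : Function.Surjective u
  eclosed : IsClosed (excSet (Cm n) u)
  inj : ∀ z z', u z = u z' → z ∉ excSet (Cm n) u → z = z'

theorem mod0 {u : X₁ → X} (hu : TZ.S.IsModif (Cm n) u) : Mod0 (n := n) u := by
  obtain ⟨⟨hT2, hT2', -, -⟩, hu, hp, U, hU, hUd, hUd', h1⟩ := hu
  have hcl : IsClosedMap u := hp.isClosedMap
  refine ⟨fun z => hu z, hcl, ?_, ?_, ?_⟩
  · have h2 : IsClosed (range u) := hcl.isClosed_range
    have h3 : U ⊆ range u := by
      intro x hx
      obtain ⟨z, hz, -⟩ := h1 x hx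
      exact ⟨z, hz⟩
    have h4 : range u = univ := by
      rw [eq_univ_iff_forall]
      intro x
      have h5 : closure U ⊆ range u := closure_minimal h3 h2
      exact h5 (by rw [hUd.closure_eq]; trivial)
    exact range_eq_univ.1 h4
  · rw [← isOpen_compl_iff, isOpen_iff_eventually]
    intro z hz
    obtain ⟨R, hR, hRe⟩ := exc_local (n := n) (u := u) (z₀ := z) fun z => hu z
    have h0 : R z ≠ 0 := fun h0 => hz (hRe.self_of_nhds.2 h0)
    filter_upwards [hRe, hR.continuousAt.eventually_ne h0] with w h2 h3 h4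
    exact h3 (h2.1 h4)
  · intro z z' hzz hz
    by_contra hne
    obtain ⟨W, W', hW, hW', hzW, hzW', hdis⟩ := t2_separation hne
    have e1 : u '' W ∈ 𝓝 (u z) :=
      nhds_le_map (hu z) (notMem_exc.1 hz) (image_mem_map (hW.mem_nhds hzW))
    rw [hzz] at e1
    have e2 : W' ∩ u ⁻¹' (u '' W) ∈ 𝓝 z' :=
      inter_mem (hW'.mem_nhds hzW') (hu.continuous.continuousAt.preimage_mem_nhds e1)
    obtain ⟨w', hw'U, hw'W', ⟨w, hw, hww'⟩⟩ := hUd'.inter_nhds_nonempty e2
    obtain ⟨y, -, hy⟩ := h1 (u w') hw'U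
    have h3 : w = w' := (hy w hww').trans (hy w' rfl).symm
    exact disjoint_left.1 hdis hw (h3 ▸ hw'W')

variable {u : X₁ → X}

/-- the preimage of the image of the exceptional set -/
theorem Mod0.mem_image (h : Mod0 (n := n) u) {z : X₁} :
    u z ∈ u '' excSet (Cm n) u ↔ z ∈ excSet (Cm n) u := by
  refine ⟨?_, fun hz => mem_image_of_mem u hz⟩
  rintro ⟨w, hw, hwz⟩
  by_contra hz
  exact hz (by rw [h.inj z w hwz.symm hz]; exact hw)

/-- the inverse of `u` -/
def inv0 (h : Mod0 (n := n) u) (x : X) : X₁ := Function.surjInv h.surj x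

theorem u_inv0 (h : Mod0 (n := n) u) (x : X) : u (inv0 h x) = x := Function.surjInv_eq h.surj x

theorem inv0_u (h : Mod0 (n := n) u) {z : X₁} (hz : z ∉ excSet (Cm n) u) : inv0 h (u z) = z :=
  (h.inj _ _ (u_inv0 h _).symm hz).symm

theorem tendsto_inv0 (h : Mod0 (n := n) u) {z : X₁} (hz : z ∉ excSet (Cm n) u) :
    Tendsto (inv0 h) (𝓝 (u z)) (𝓝 z) := by
  intro W hW
  rw [mem_map]
  obtain ⟨V, hVW, hV, hzV⟩ := mem_nhds_iff.1 hW
  have h1 : IsOpen (u '' Vᶜ)ᶜ := (h.closed _ hV.isClosed_compl).isOpen_compl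
  have h2 : u z ∈ (u '' Vᶜ)ᶜ := by
    rintro ⟨w, hw, hwz⟩
    exact hw (by rw [← h.inj z w hwz.symm hz]; exact hzV)
  filter_upwards [h1.mem_nhds h2] with y hy
  apply hVW
  by_contra hcon
  exact hy ⟨inv0 h y, hcon, u_inv0 h y⟩

theorem holV_of_inv0 (h : Mod0 (n := n) u) {z : X₁} (hz : z ∉ excSet (Cm n) u) {V : Type*}
    [NormedAddCommGroup V] [NormedSpace ℂ V] {A : X₁ → V} (hA : HolV (Cm n) A z) :
    HolV (Cm n) (fun y => A (inv0 h y)) (u z) := by
  refine holV_of_comp (h.hol z) (notMem_exc.1 hz).1 (hA.congr ?_)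
  filter_upwards [h.eclosed.isOpen_compl.mem_nhds hz] with w hw
  rw [inv0_u h hw]

end Vale.Agent.P281.H603.KodN
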