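import Mathlib

/-!
# P281, theorem T-K (helper603): ALG3, the combinatorial part

The sum over the permutations of `Fin (n + 1) × Bool` of the standard symplectic forms.
-/

open Equiv

namespace Vale.Agent.P281.H603.K

/-- the matrix of the standard form `Σ y_l ⊗ x_l - x_l ⊗ y_l` -/
def Om {m : ℕ} (r r' : Fin m × Bool) : ℝ :=
  if r.1 = r'.1 then (if r.2 = r'.2 then 0 else if r.2 then 1 else -1) else 0

/-- the sign of a change of orientation -/
def sg (c : Bool) : ℝ := if c then -1 else 1

theorem sg_mul_self (c : Bool) : sg c * sg c = 1 := by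
  cases c <;> simp [sg]

/-- the flip of a pair -/
def flip (c : Bool) : Perm Bool := if c then Equiv.swap false true else 1

theorem flip_apply (c b : Bool) : flip c b = (b ^^ c) := by
  cases c <;> cases b <;> simp [flip]

theorem sign_flip (c : Bool) : (((Perm.sign (flip c) : ℤ) : ℝ)) = sg c := by
  cases c
  · simp [flip, sg]
  · have : Perm.sign (flip true) = -1 := by
      show Perm.sign (if true then Equiv.swap false true else 1) = -1
      rw [if_pos rfl, Perm.sign_swap (by decide)]
    rw [this]
    simp [sg]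

/-- a permutation of the pairs, after flips -/
def Ph {m : ℕ} (σ : Perm (Fin m)) (ε : Fin m → Bool) : Perm (Fin m × Bool) :=
  (Equiv.prodCongrLeft fun _ : Bool => σ) * Equiv.prodCongrRight fun k => flip (ε k)

theorem Ph_apply {m : ℕ} (σ : Perm (Fin m)) (ε : Fin m → Bool) (k : Fin m) (c : Bool) :
    Ph σ ε (k, c) = (σ k, c ^^ ε k) := by
  rw [← flip_apply]
  rfl

theorem sign_Ph {m : ℕ} (σ : Perm (Fin m)) (ε : Fin m → Bool) :
    (((Perm.sign (Ph σ ε) : ℤ) : ℝ)) = ∏ k, sg (ε k) := by
  unfold Ph
  rw [Perm.sign_mul, Perm.sign_prodCongrLeft, Perm.sign_prodCongrRight]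
  have h1 : ∏ _k : Bool, Perm.sign σ = 1 := by
    rw [Finset.prod_const, Finset.card_univ, Fintype.card_bool]
    exact Int.units_sq _
  rw [h1, one_mul]
  push_cast
  exact Finset.prod_congr rfl fun k _ => sign_flip (ε k)

theorem Ph_injective {m : ℕ} :
    Function.Injective fun q : Perm (Fin m) × (Fin m → Bool) => Ph q.1 q.2 := by
  rintro ⟨σ, ε⟩ ⟨σ', ε'⟩ h
  have h1 : ∀ k, (σ k, false ^^ ε k) = (σ' k, false ^^ ε' k) := fun k => by
    rw [← Ph_apply, ← Ph_apply]
    exact congrArg (fun π : Perm (Fin m × Bool) => π (k, false)) h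
  ext k
  · exact congrArg (fun x : Fin m × Bool => (x.1 : ℕ)) (h1 k)
  · have := congrArg (fun x : Fin m × Bool => x.2) (h1 k)
    simpa using this

/-- a permutation is a `Ph` if it matches the pairs with index `k ≠ k₀` -/
theorem exists_Ph {m : ℕ} (k₀ : Fin m) (π : Perm (Fin m × Bool))
    (h : ∀ k, k ≠ k₀ → (π (k, false)).1 = (π (k, true)).1 ∧ (π (k, false)).2 ≠ (π (k, true)).2) :
    ∃ q : Perm (Fin m) × (Fin m → Bool), Ph q.1 q.2 = π := by
  -- the last pair
  have h0 : ∀ k, (π (k, false)).1 = (π (k, true)).1 ∧ (π (k, false)).2 ≠ (π (k, true)).2 := by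
    intro k
    by_cases hk : k = k₀
    swap
    · exact h k hk
    subst hk
    obtain ⟨⟨k', c'⟩, hk'⟩ := π.surjective ((π (k, false)).1, !(π (k, false)).2)
    have hkk : k' = k := by
      by_contra hne
      obtain ⟨a1, a2⟩ := h k' hne
      -- then `π (k', !c') = π (k, false)`
      have h1 : π (k', !c') = π (k, false) := by
        cases c' with
        | false =>
          have b1 := congrArg Prod.fst hk'
          have b2 := congrArg Prod.snd hk'
          simp only at b1 b2
          rw [b1] at a1
          rw [b2] at a2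
          refine Prod.ext a1.symm ?_
          simp only [Bool.not_false]
          revert a2
          cases (π (k, false)).2 <;> cases (π (k', true)).2 <;> simp
        | true =>
          have b1 := congrArg Prod.fst hk'
          have b2 := congrArg Prod.snd hk'
          simp only at b1 b2
          rw [b1] at a1
          rw [b2] at a2
          refine Prod.ext a1 ?_
          simp only [Bool.not_true]
          revert a2
          cases (π (k, false)).2 <;> cases (π (k', false)).2 <;> simp
      have h2 := π.injective h1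
      exact hne (congrArg Prod.fst h2)
    subst hkk
    cases c' with
    | false =>
      have b2 := congrArg Prod.snd hk'
      simp at b2
    | true =>
      have b1 := congrArg Prod.fst hk'
      have b2 := congrArg Prod.snd hk'
      simp only at b1 b2
      refine ⟨b1.symm, ?_⟩
      rw [b2]
      cases (π (k', false)).2 <;> simp
  have hinj : Function.Injective fun k => (π (k, false)).1 := by
    intro k k' hkk
    simp only at hkk
    obtain ⟨a1, a2⟩ := h0 k
    by_cases hb : (π (k, false)).2 = (π (k', false)).2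
    · have := π.injective (Prod.ext hkk hb)
      exact congrArg Prod.fst this
    · have h1 : (π (k, true)).2 = (π (k', false)).2 := by
        revert a2 hb
        cases (π (k, false)).2 <;> cases (π (k, true)).2 <;> cases (π (k', false)).2 <;> simp
      have := π.injective (Prod.ext (a1.symm.trans hkk) h1)
      exact congrArg Prod.fst this
  refine ⟨⟨Equiv.ofBijective _ (Finite.injective_iff_bijective.1 hinj),
    fun k => (π (k, false)).2⟩, ?_⟩
  ext1 ⟨k, c⟩
  rw [Ph_apply]
  obtain ⟨a1, a2⟩ := h0 k
  cases c with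
  | false => exact Prod.ext rfl (by simp)
  | true =>
    refine Prod.ext a1 ?_
    revert a2
    simp only
    cases (π (k, false)).2 <;> cases (π (k, true)).2 <;> simp

theorem Om_flip {m : ℕ} (i : Fin m) (c : Bool) : Om (i, false ^^ c) (i, true ^^ c) = - sg c := by
  cases c <;> simp [Om, sg]

theorem Om_eq_zero {m : ℕ} {r r' : Fin m × Bool} (h : ¬ (r.1 = r'.1 ∧ r.2 ≠ r'.2)) :
    Om r r' = 0 := by
  unfold Om
  by_cases h1 : r.1 = r'.1
  · rw [if_pos h1]
    have h2 : r.2 = r'.2 := by
      by_contra h3
      exact h ⟨h1, h3⟩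
    rw [if_pos h2]
  · rw [if_neg h1]

/-- **The sum over the permutations.** -/
theorem sum_perm {n : ℕ} (a a' : Fin (n + 1) × Bool → ℝ) :
    ∑ π : Perm (Fin (n + 1) × Bool), (((Perm.sign π : ℤ) : ℝ) *
      (a (π (0, false)) * a' (π (0, true)) *
        ∏ k ∈ Finset.univ.erase (0 : Fin (n + 1)), Om (π (k, false)) (π (k, true)))) =
      (-2) ^ n * n.factorial *
        ∑ m, (a (m, false) * a' (m, true) - a (m, true) * a' (m, false)) := by
  classical
  set D : Fin (n + 1) → Bool → ℝ := fun m c => sg c * (a (m, false ^^ c) * a' (m, true ^^ c)) with hD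
  have h1 : ∑ π : Perm (Fin (n + 1) × Bool), (((Perm.sign π : ℤ) : ℝ) *
      (a (π (0, false)) * a' (π (0, true)) *
        ∏ k ∈ Finset.univ.erase (0 : Fin (n + 1)), Om (π (k, false)) (π (k, true)))) =
      ∑ q : Perm (Fin (n + 1)) × (Fin (n + 1) → Bool), (-1) ^ n * D (q.1 0) (q.2 0) := by
    refine (Fintype.sum_of_injective (fun q : Perm (Fin (n + 1)) × (Fin (n + 1) → Bool) =>
      Ph q.1 q.2) Ph_injective _ _ (fun π hπ => ?_) (fun q => ?_)).symm
    · have h2 : ∃ k, k ≠ (0 : Fin (n + 1)) ∧
          ¬ ((π (k, false)).1 = (π (k, true)).1 ∧ (π (k, false)).2 ≠ (π (k, true)).2) := by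
        by_contra h3
        push Not at h3
        refine hπ ?_
        obtain ⟨q, hq⟩ := exists_Ph 0 π fun k hk => h3 k hk
        exact ⟨q, hq⟩
      obtain ⟨k, hk, hk'⟩ := h2
      have h3 : ∏ k ∈ Finset.univ.erase (0 : Fin (n + 1)), Om (π (k, false)) (π (k, true)) = 0 :=
        Finset.prod_eq_zero (Finset.mem_erase.2 ⟨hk, Finset.mem_univ k⟩) (Om_eq_zero hk')
      rw [h3]
      ring
    · obtain ⟨σ, ε⟩ := q
      simp only [Ph_apply, Om_flip, sign_Ph, hD]
      rw [← Finset.mul_prod_erase Finset.univ (fun k => sg (ε k)) (Finset.mem_univ 0)]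
      have h2 : (∏ k ∈ Finset.univ.erase (0 : Fin (n + 1)), sg (ε k)) *
          ∏ k ∈ Finset.univ.erase (0 : Fin (n + 1)), - sg (ε k) = (-1) ^ n := by
        rw [← Finset.prod_mul_distrib]
        have h3 : ∀ k ∈ Finset.univ.erase (0 : Fin (n + 1)), sg (ε k) * - sg (ε k) = -1 := by
          intro k _
          rw [mul_neg, sg_mul_self]
        rw [Finset.prod_congr rfl h3, Finset.prod_const, Finset.card_erase_of_mem
          (Finset.mem_univ _), Finset.card_univ, Fintype.card_fin, Nat.add_sub_cancel]
      linear_combination (-(sg (ε 0) * (a (σ 0, false ^^ ε 0) * a' (σ 0, true ^^ ε 0)))) * h2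
  rw [h1, ← Finset.mul_sum, Fintype.sum_prod_type]
  -- the sum over the flips
  have h2 : ∀ m : Fin (n + 1), ∑ ε : Fin (n + 1) → Bool, D m (ε 0) = 2 ^ n * ∑ c, D m c := by
    intro m
    rw [← (Fin.consEquiv fun _ : Fin (n + 1) => Bool).sum_comp, Fintype.sum_prod_type,
      Finset.mul_sum]
    refine Finset.sum_congr rfl fun c _ => ?_
    have h3 : ∀ y : Fin n → Bool, D m ((Fin.consEquiv fun _ : Fin (n + 1) => Bool) (c, y) 0) =
        D m c := fun y => rfl
    rw [Finset.sum_congr rfl fun y _ => h3 y, Finset.sum_const, Finset.card_univ,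
      Fintype.card_pi_const, Fintype.card_bool, nsmul_eq_mul]
    push_cast
    rfl
  simp only [h2]
  -- the sum over the permutations of the pairs
  have h3 : ∑ σ : Perm (Fin (n + 1)), (2 : ℝ) ^ n * ∑ c, D (σ 0) c =
      n.factorial * ∑ m, (2 : ℝ) ^ n * ∑ c, D m c := by
    rw [← Equiv.Perm.decomposeFin.symm.sum_comp, Fintype.sum_prod_type, Finset.mul_sum]
    refine Finset.sum_congr rfl fun m _ => ?_
    simp only [Equiv.Perm.decomposeFin_symm_apply_zero]
    rw [Finset.sum_const, Finset.card_univ, Fintype.card_perm, Fintype.card_fin, nsmul_eq_mul]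
  rw [h3, ← Finset.mul_sum]
  have h4 : ∀ m, ∑ c, D m c = a (m, false) * a' (m, true) - a (m, true) * a' (m, false) := by
    intro m
    rw [Fintype.sum_bool]
    simp [hD, sg]
    ring
  simp only [h4]
  have h5 : (-2 : ℝ) ^ n = (-1) ^ n * 2 ^ n := by
    rw [← mul_pow]
    norm_num
  rw [h5]
  ring

end Vale.Agent.P281.H603.K
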