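import Vale.Agent.P281.H511.TK.Spec
import Vale.Agent.P281.H603.K.AlgC
import Vale.Agent.P272.K.C2.PosLin

/-!
# P281, theorem T-K (helper603): sub-block ALG3 of FLAT
-/

open Set Filter Metric
open scoped Topology ContDiff ComplexConjugate ComplexOrder Matrix

noncomputable section

namespace Vale.Agent.P281.H603.K

open Vale.Agent.P281.H64.TK Vale.Agent.P281.H511.TK
open Vale.Agent.P281.H64 (Cm Mark)

/-- the first coordinate of `vec b` -/
theorem vec_fst {d : ℕ} (b : Fin d → Bi d) :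
    (vec b).1 = ∑ π : Equiv.Perm (Fin d × Bool), (((Equiv.Perm.sign π : ℤ) : ℝ) *
      ∏ k, b k (bas (some (π (k, false)))) (bas (some (π (k, true))))) := by
  classical
  have h1 : ∀ i : Ix d, (bas i).1 = if i = none then (1 : ℝ) else 0 := by
    rintro (_ | ⟨k, _ | _⟩) <;> simp [bas]
  unfold vec
  rw [Prod.fst_sum, ← Equiv.Perm.decomposeOption.symm.sum_comp, Fintype.sum_prod_type,
    Finset.sum_eq_single none]
  · refine Finset.sum_congr rfl fun π _ => ?_
    rw [Equiv.Perm.decomposeOption_symm_sign, Equiv.Perm.decomposeOption_symm_apply]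
    simp only [Equiv.swap_self, Equiv.Perm.refl_mul, Equiv.optionCongr_apply, Option.map_some,
      Option.map_none, Prod.smul_fst, h1, if_true, smul_eq_mul, mul_one]
  · intro i _ hi
    refine Finset.sum_eq_zero fun π _ => ?_
    have h2 : (Equiv.Perm.decomposeOption.symm (i, π)) none = i := by
      rw [Equiv.Perm.decomposeOption_symm_apply]
      simp
    rw [h2, Prod.smul_fst, h1, if_neg hi, smul_zero]
  · intro h
    exact absurd (Finset.mem_univ _) h

theorem bas_false {d : ℕ} (k : Fin d) :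
    bas (some (k, false) : Ix d) = ((0 : ℝ), (Pi.single k 1 : Cm d)) := rfl

theorem bas_true {d : ℕ} (k : Fin d) :
    bas (some (k, true) : Ix d) = ((0 : ℝ), (Pi.single k Complex.I : Cm d)) := rfl

/-- the standard case -/
theorem alg3_std {n : ℕ} (u u' : Cm (n + 1)) (b : Fin (n + 1) → Bi (n + 1))
    (h0 : ∀ ζ ζ' : Cm (n + 1), b 0 (0, ζ) (0, ζ') = (∑ k, u k * ζ k).re * (∑ k, u' k * ζ' k).re)
    (hk : ∀ k, k ≠ 0 → ∀ ζ ζ' : Cm (n + 1), b k (0, ζ) (0, ζ') = (∑ i, ζ i * conj (ζ' i)).im) :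
    (vec b).1 = (-2) ^ n * n.factorial * (∑ m, u m * conj (u' m)).im := by
  classical
  have hw : ∀ (x : Cm (n + 1)) (k : Fin (n + 1)) (c : ℂ),
      ∑ j, x j * (Pi.single k c : Cm (n + 1)) j = x k * c := by
    intro x k c
    rw [Finset.sum_eq_single k]
    · simp
    · intro j _ hj
      simp [hj]
    · intro h
      exact absurd (Finset.mem_univ _) h
  set a : Cm (n + 1) → Fin (n + 1) × Bool → ℝ := fun x r => if r.2 then - (x r.1).im else (x r.1).re
    with ha
  have h1 : ∀ (x : Cm (n + 1)) (r : Fin (n + 1) × Bool),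
      (∑ k, x k * (bas (some r) : ℝ × Cm (n + 1)).2 k).re = a x r := by
    rintro x ⟨k, _ | _⟩
    · rw [bas_false]
      simp only [hw, ha]
      simp
    · rw [bas_true]
      simp only [hw, ha]
      simp
  have hz : ∀ r : Fin (n + 1) × Bool, (bas (some r) : ℝ × Cm (n + 1)) =
      (0, (bas (some r) : ℝ × Cm (n + 1)).2) := by
    rintro ⟨k, _ | _⟩ <;> rfl
  have h2 : ∀ r r' : Fin (n + 1) × Bool, (∑ i, (bas (some r) : ℝ × Cm (n + 1)).2 i *
      conj ((bas (some r') : ℝ × Cm (n + 1)).2 i)).im = Om r r' := by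
    have h3 : ∀ (k k' : Fin (n + 1)) (c c' : ℂ),
        ∑ i, (Pi.single k c : Cm (n + 1)) i * conj ((Pi.single k' c' : Cm (n + 1)) i) =
          if k = k' then c * conj c' else 0 := by
      intro k k' c c'
      rw [Finset.sum_eq_single k]
      · by_cases h : k = k'
        · subst h
          simp
        · simp [h]
      · intro j _ hj
        simp [hj]
      · intro h
        exact absurd (Finset.mem_univ _) h
    rintro ⟨k, _ | _⟩ ⟨k', _ | _⟩ <;> simp only [bas_false, bas_true, h3, Om] <;>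
      by_cases h : k = k' <;> simp [h]
  rw [vec_fst]
  have h3 : ∀ π : Equiv.Perm (Fin (n + 1) × Bool),
      ∏ k, b k (bas (some (π (k, false)))) (bas (some (π (k, true)))) =
      a u (π (0, false)) * a u' (π (0, true)) *
        ∏ k ∈ Finset.univ.erase (0 : Fin (n + 1)), Om (π (k, false)) (π (k, true)) := by
    intro π
    rw [← Finset.mul_prod_erase Finset.univ _ (Finset.mem_univ (0 : Fin (n + 1)))]
    congr 1
    · rw [hz (π (0, false)), hz (π (0, true)), h0, h1, h1]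
    · refine Finset.prod_congr rfl fun k hk' => ?_
      rw [hz (π (k, false)), hz (π (k, true)), hk k (Finset.ne_of_mem_erase hk'), h2]
  simp only [h3]
  rw [sum_perm]
  congr 1
  rw [Complex.im_sum]
  refine Finset.sum_congr rfl fun m _ => ?_
  simp only [ha, Complex.mul_im, Complex.conj_re, Complex.conj_im]
  simp

/-- the real determinant of a complex matrix -/
theorem det_real {d : ℕ} (J : Matrix (Fin d) (Fin d) ℂ) :
    LinearMap.det ((Matrix.toLin' J).restrictScalars ℝ) = Complex.normSq J.det := by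
  rw [LinearMap.det_restrictScalars, LinearMap.det_toLin', Algebra.norm_complex_apply]

/-- **ALG3** -/
theorem alg3 (hA1 : Alg1Stmt) : Alg3Stmt := by
  classical
  refine ⟨fun d => (-2) ^ (d - 1) * (d - 1).factorial, fun d => ?_, ?_⟩
  · exact mul_ne_zero (pow_ne_zero _ (by norm_num)) (Nat.cast_ne_zero.2 (Nat.factorial_ne_zero _))
  intro d hd w v v' b hw hb0 hbk
  obtain ⟨n, rfl⟩ : ∃ n, d = n + 1 := ⟨d - 1, by omega⟩
  obtain ⟨B, hB⟩ := P272.K.C2.exists_factor hw.posSemidef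
  -- `w = Jᵀ conj J`
  set J : Matrix (Fin (n + 1)) (Fin (n + 1)) ℂ := B.map conj with hJ
  have hwJ : w = Jᵀ * J.map conj := by
    rw [hB]
    ext i j
    simp [hJ, Matrix.mul_apply, Matrix.conjTranspose_apply]
  have hdet : w.det = (Complex.normSq J.det : ℂ) := by
    have h1 : (J.map conj).det = conj J.det := by
      rw [RingHom.map_det]
      rfl
    rw [hwJ, Matrix.det_mul, Matrix.det_transpose, h1, Complex.mul_conj]
  have hJ0 : J.det ≠ 0 := by
    intro h
    have h1 := hw.det_pos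
    rw [hdet, h, map_zero, Complex.ofReal_zero] at h1
    exact lt_irrefl _ h1
  have hJu : IsUnit J.det := isUnit_iff_ne_zero.2 hJ0
  have hJJ : J⁻¹ * J = 1 := Matrix.nonsing_inv_mul _ hJu
  have hJJ' : J * J⁻¹ = 1 := Matrix.mul_nonsing_inv _ hJu
  -- the change of coordinates
  set A : Cm (n + 1) →L[ℝ] Cm (n + 1) := ((Matrix.toLin' J).restrictScalars ℝ).toContinuousLinearMap
    with hA
  set A' : Cm (n + 1) →L[ℝ] Cm (n + 1) :=
    ((Matrix.toLin' J⁻¹).restrictScalars ℝ).toContinuousLinearMap with hA'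
  have hAa : ∀ ζ, A ζ = J *ᵥ ζ := fun ζ => rfl
  have hA'a : ∀ ζ, A' ζ = J⁻¹ *ᵥ ζ := fun ζ => rfl
  set L : (ℝ × Cm (n + 1)) →L[ℝ] (ℝ × Cm (n + 1)) :=
    (ContinuousLinearMap.id ℝ ℝ).prodMap A with hL
  set L' : (ℝ × Cm (n + 1)) →L[ℝ] (ℝ × Cm (n + 1)) :=
    (ContinuousLinearMap.id ℝ ℝ).prodMap A' with hL'
  have hLL : ∀ x, L' (L x) = x := by
    rintro ⟨s, ζ⟩
    show (s, A' (A ζ)) = (s, ζ)
    rw [hAa, hA'a, Matrix.mulVec_mulVec, hJJ, Matrix.one_mulVec]
  set b₀ : Fin (n + 1) → Bi (n + 1) := fun k => (b k).bilinearComp L' L' with hb₀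
  have hb₀a : ∀ k x y, b₀ k x y = b k (L' x) (L' y) := fun k x y => rfl
  have h1 := hA1 (n + 1) L b₀ b fun k x y => by rw [hb₀a, hLL, hLL]
  have h2 : (vec b).1 = L.det * (vec b₀).1 := by
    have h3 := congrArg Prod.fst h1
    simpa [hL] using h3
  have hLdet : L.det = Complex.normSq J.det := by
    have h3 : (L : (ℝ × Cm (n + 1)) →ₗ[ℝ] (ℝ × Cm (n + 1))) =
        LinearMap.prodMap LinearMap.id ((Matrix.toLin' J).restrictScalars ℝ) := rfl
    show LinearMap.det (L : (ℝ × Cm (n + 1)) →ₗ[ℝ] (ℝ × Cm (n + 1))) = _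
    rw [h3, LinearMap.det_prodMap, LinearMap.det_id, one_mul, det_real]
  -- the new vectors
  set u : Cm (n + 1) := (J⁻¹)ᵀ *ᵥ v with hu
  set u' : Cm (n + 1) := (J⁻¹)ᵀ *ᵥ v' with hu'
  have hvu : ∀ (x : Cm (n + 1)) (ζ : Cm (n + 1)), ∑ k, x k * (J⁻¹ *ᵥ ζ) k =
      ∑ k, ((J⁻¹)ᵀ *ᵥ x) k * ζ k := by
    intro x ζ
    have h3 : x ⬝ᵥ (J⁻¹ *ᵥ ζ) = ((J⁻¹)ᵀ *ᵥ x) ⬝ᵥ ζ := by
      rw [Matrix.dotProduct_mulVec, Matrix.mulVec_transpose]
    exact h3
  have hstd := alg3_std u u' b₀ (fun ζ ζ' => by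
      rw [hb₀a]
      show b 0 (0, J⁻¹ *ᵥ ζ) (0, J⁻¹ *ᵥ ζ') = _
      have h3 := hb0 (J⁻¹ *ᵥ ζ) (J⁻¹ *ᵥ ζ')
      rw [hvu, hvu] at h3
      exact h3) (fun k hk ζ ζ' => by
      rw [hb₀a]
      show b k (0, J⁻¹ *ᵥ ζ) (0, J⁻¹ *ᵥ ζ') = _
      rw [hbk k hk]
      congr 1
      have h3 : ∀ x y : Cm (n + 1), ∑ i, ∑ j, w i j * x i * conj (y j) =
          ∑ l, (J *ᵥ x) l * conj ((J *ᵥ y) l) := by
        intro x y
        have h4 : ∀ l, (J *ᵥ x) l * conj ((J *ᵥ y) l) =
            ∑ i, ∑ j, (J l i * conj (J l j)) * x i * conj (y j) := by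
          intro l
          simp only [Matrix.mulVec, dotProduct, map_sum, map_mul]
          rw [Finset.sum_mul_sum]
          refine Finset.sum_congr rfl fun i _ => Finset.sum_congr rfl fun j _ => ?_
          ring
        simp only [h4]
        symm
        rw [Finset.sum_comm]
        refine Finset.sum_congr rfl fun i _ => ?_
        rw [Finset.sum_comm]
        refine Finset.sum_congr rfl fun j _ => ?_
        rw [hwJ, Matrix.mul_apply, Finset.sum_mul, Finset.sum_mul]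
        rfl
      rw [h3, Matrix.mulVec_mulVec, Matrix.mulVec_mulVec, hJJ', Matrix.one_mulVec,
        Matrix.one_mulVec])
  rw [h2, hLdet, hstd]
  -- the right-hand side
  have hV : (Matrix.of fun j k => v j * conj (v' k)) =
      Jᵀ * (Matrix.of fun j k => u j * conj (u' k)) * J.map conj := by
    have h3 : ∀ x : Cm (n + 1), x = Jᵀ *ᵥ ((J⁻¹)ᵀ *ᵥ x) := by
      intro x
      rw [Matrix.mulVec_mulVec, ← Matrix.transpose_mul, hJJ, Matrix.transpose_one,
        Matrix.one_mulVec]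
    ext j k
    have h4 : v j = ∑ l, J l j * u l := by
      conv_lhs => rw [h3 v]
      rfl
    have h5 : v' k = ∑ l, J l k * u' l := by
      conv_lhs => rw [h3 v']
      rfl
    simp only [Matrix.of_apply, Matrix.mul_apply, Matrix.transpose_apply, Matrix.map_apply]
    rw [h4, h5, map_sum, Finset.sum_mul_sum, Finset.sum_comm]
    refine Finset.sum_congr rfl fun m _ => ?_
    rw [Finset.sum_mul]
    refine Finset.sum_congr rfl fun l _ => ?_
    rw [map_mul]
    ring
  have hmc : (J.map conj) * (J⁻¹.map conj) = 1 := by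
    rw [← Matrix.map_mul, hJJ']
    simp
  have hmc' : (J⁻¹.map conj) * (J.map conj) = 1 := by
    rw [← Matrix.map_mul, hJJ]
    simp
  have htt : (J⁻¹)ᵀ * Jᵀ = 1 := by rw [← Matrix.transpose_mul, hJJ', Matrix.transpose_one]
  have hwinv : w⁻¹ = (J⁻¹.map conj) * (J⁻¹)ᵀ := by
    refine Matrix.inv_eq_left_inv ?_
    rw [hwJ, Matrix.mul_assoc, ← Matrix.mul_assoc (J⁻¹)ᵀ, htt, Matrix.one_mul, hmc']
  have htr : (w⁻¹ * Matrix.of fun j k => v j * conj (v' k)).trace = ∑ m, u m * conj (u' m) := by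
    rw [hV, hwinv]
    have h3 : (J⁻¹.map conj) * (J⁻¹)ᵀ * (Jᵀ * (Matrix.of fun j k => u j * conj (u' k)) *
        J.map conj) = (J⁻¹.map conj) * ((Matrix.of fun j k => u j * conj (u' k)) * J.map conj) := by
      rw [Matrix.mul_assoc, Matrix.mul_assoc Jᵀ, ← Matrix.mul_assoc (J⁻¹)ᵀ, htt, Matrix.one_mul]
    rw [h3, Matrix.trace_mul_comm, Matrix.mul_assoc, hmc, Matrix.mul_one]
    rfl
  rw [htr, hdet, Complex.im_ofReal_mul]
  simp only [Nat.add_sub_cancel]
  ring

end Vale.Agent.P281.H603.K
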