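import Vale.Agent.P281.H511.TK.Spec

/-!
# P281, theorem T-K (helper603): sub-block ALG5 of FLAT
-/

open Set Filter Metric
open scoped Topology ContDiff ComplexConjugate ComplexOrder Matrix

noncomputable section

namespace Vale.Agent.P281.H603.K

open Vale.Agent.P281.H64.TK Vale.Agent.P281.H511.TK
open Vale.Agent.P281.H64 (Cm Mark)

/-! ### The product of two differentials -/

theorem gen_prod0 {V F : Type} [NormedAddCommGroup V] [NormedSpace ℝ V] [NormedAddCommGroup F]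
    [NormedSpace ℝ F] {f : V → (V →L[ℝ] ℝ)} {g : V → F} {f' : V →L[ℝ] (V →L[ℝ] ℝ)}
    {g' : V →L[ℝ] F} {q : V} (hf : HasFDerivAt f f' q) (hg : HasFDerivAt g g' q) :
    ∃ L : V →L[ℝ] (V →L[ℝ] F), HasFDerivAt (fun q => (f q).smulRight (g q)) L q ∧
      ∀ x y, L x y = f q y • g' x + f' x y • g q := by
  have h := (isBoundedBilinearMap_smulRight (𝕜 := ℝ) (E := V) (F := F)).hasFDerivAt (f q, g q)
  have h2 := h.comp q (hf.prodMk hg)
  exact ⟨_, h2, fun x y => rfl⟩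

theorem gen_prod0_smooth {V F : Type} [NormedAddCommGroup V] [NormedSpace ℝ V]
    [NormedAddCommGroup F] [NormedSpace ℝ F]
    {f : V → (V →L[ℝ] ℝ)} {g : V → F} {q : V} (hf : ContDiffAt ℝ ∞ f q)
    (hg : ContDiffAt ℝ ∞ g q) :
    ContDiffAt ℝ ∞ (fun q => (f q).smulRight (g q)) q := hf.smulRight hg

theorem gen_prod {V : Type} [NormedAddCommGroup V] [NormedSpace ℝ V] {f g : V → (V →L[ℝ] ℝ)}
    {f' g' : V →L[ℝ] (V →L[ℝ] ℝ)} {q : V} (hf : HasFDerivAt f f' q) (hg : HasFDerivAt g g' q) :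
    ∃ L : V →L[ℝ] (V →L[ℝ] V →L[ℝ] ℝ), HasFDerivAt (fun q => (f q).smulRight (g q)) L q ∧
      ∀ x y z, L x y z = f q y * g' x z + f' x y * g q z := by
  obtain ⟨L, h1, h2⟩ := gen_prod0 hf hg
  refine ⟨L, h1, fun x y z => ?_⟩
  rw [h2]
  rfl

theorem alg5_prod {d : ℕ} {U U' : ℝ × Cm d → ℝ} {q : ℝ × Cm d} (hU : ContDiffAt ℝ ∞ U q)
    (hU' : ContDiffAt ℝ ∞ U' q) :
    ContDiffAt ℝ ∞ (fun q => (fderiv ℝ U q).smulRight (fderiv ℝ U' q)) q ∧
    ClosedB (fderiv ℝ (fun q => (fderiv ℝ U q).smulRight (fderiv ℝ U' q)) q) := by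
  have h1 : ContDiffAt ℝ ∞ (fderiv ℝ U) q := hU.fderiv_right (by simp)
  have h2 : ContDiffAt ℝ ∞ (fderiv ℝ U') q := hU'.fderiv_right (by simp)
  have hd1 := (h1.differentiableAt (by simp)).hasFDerivAt
  have hd2 := (h2.differentiableAt (by simp)).hasFDerivAt
  refine ⟨gen_prod0_smooth h1 h2, ?_⟩
  obtain ⟨L, hL, key⟩ := gen_prod hd1 hd2
  rw [hL.fderiv]
  have h22 : minSmoothness ℝ 2 ≤ ∞ := by
    rw [minSmoothness_of_isRCLikeNormedField]
    exact WithTop.coe_le_coe.2 (le_top : (2 : ℕ∞) ≤ ⊤)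
  have s1 : ∀ x y, fderiv ℝ (fderiv ℝ U) q x y = fderiv ℝ (fderiv ℝ U) q y x :=
    (hU.isSymmSndFDerivAt h22).eq
  have s2 : ∀ x y, fderiv ℝ (fderiv ℝ U') q x y = fderiv ℝ (fderiv ℝ U') q y x :=
    (hU'.isSymmSndFDerivAt h22).eq
  intro x y z
  rw [key, key, key, key, key, key, s1 y x, s1 z x, s1 z y, s2 y x, s2 z x, s2 z y]
  ring

/-! ### The imaginary part of a Hermitian matrix -/

/-- the coordinates on `ℂ^p × ℂ^d` -/
def cx {p d : ℕ} (ξ : Cm p × Cm d) (a : Fin p ⊕ Fin d) : ℂ := Sum.elim ξ.1 ξ.2 a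

theorem eq_sum_bv {p d : ℕ} (ξ : Cm p × Cm d) : ξ = ∑ a : Fin p ⊕ Fin d,
    ((cx ξ a).re • bv a + (cx ξ a).im • (Complex.I • bv a)) := by
  have h1 : ∀ a : Fin p ⊕ Fin d, (cx ξ a).re • bv (p := p) (d := d) a +
      (cx ξ a).im • (Complex.I • bv a) = cx ξ a • bv a := by
    intro a
    rw [← Complex.coe_smul, ← Complex.coe_smul, smul_smul, ← add_smul, Complex.re_add_im]
  simp only [h1, Fintype.sum_sum_type]
  ext k
  · rw [Prod.fst_add, Pi.add_apply, Prod.fst_sum, Prod.fst_sum, Finset.sum_apply, Finset.sum_apply]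
    simp [cx, bv, Pi.single_apply]
  · rw [Prod.snd_add, Pi.add_apply, Prod.snd_sum, Prod.snd_sum, Finset.sum_apply, Finset.sum_apply]
    simp [cx, bv, Pi.single_apply]

/-- the `ℂ`-linear part -/
def pl {p d : ℕ} (φ : (Cm p × Cm d) →L[ℝ] ℂ) (a : Fin p ⊕ Fin d) : ℂ :=
  (φ (bv a) - Complex.I * φ (Complex.I • bv a)) / 2

/-- the antilinear part -/
def pb {p d : ℕ} (φ : (Cm p × Cm d) →L[ℝ] ℂ) (a : Fin p ⊕ Fin d) : ℂ :=
  (φ (bv a) + Complex.I * φ (Complex.I • bv a)) / 2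

theorem real_linear {p d : ℕ} (φ : (Cm p × Cm d) →L[ℝ] ℂ) (ξ : Cm p × Cm d) :
    φ ξ = ∑ a, (pl φ a * cx ξ a + pb φ a * conj (cx ξ a)) := by
  conv_lhs => rw [eq_sum_bv ξ]
  rw [map_sum]
  refine Finset.sum_congr rfl fun a _ => ?_
  rw [map_add, map_smul, map_smul, Complex.real_smul, Complex.real_smul, pl, pb]
  have h1 : cx ξ a = (cx ξ a).re + (cx ξ a).im * Complex.I := (Complex.re_add_im _).symm
  have h2 : conj (cx ξ a) = (cx ξ a).re - (cx ξ a).im * Complex.I := by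
    apply Complex.ext <;> simp
  rw [h2]
  conv_rhs => rw [h1]
  simp only [Complex.add_re, Complex.add_im, Complex.mul_re, Complex.mul_im, Complex.ofReal_re,
    Complex.ofReal_im, Complex.I_re, Complex.I_im, mul_zero, mul_one, sub_zero, add_zero,
    zero_add]
  linear_combination (((cx ξ a).im : ℂ) * φ (Complex.I • bv a)) * Complex.I_mul_I

theorem pb_conj {p d : ℕ} {φ ψ : (Cm p × Cm d) →L[ℝ] ℂ} (h : ∀ ξ, φ ξ = conj (ψ ξ))
    (a : Fin p ⊕ Fin d) : pb φ a = conj (pl ψ a) := by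
  have h2 : conj (2 : ℂ) = 2 := Complex.conj_ofNat 2
  rw [pb, pl, h, h, map_div₀, map_sub, map_mul, Complex.conj_I, h2]
  ring

/-- the tangent vector of the path -/
def tv {p d : ℕ} (τ : Cm p) : (ℝ × Cm d) →L[ℝ] (Cm p × Cm d) :=
  (((ContinuousLinearMap.fst ℝ ℝ (Cm d)).smulRight τ)).prod (ContinuousLinearMap.snd ℝ ℝ (Cm d))

theorem tv_apply {p d : ℕ} (τ : Cm p) (x : ℝ × Cm d) : tv τ x = (x.1 • τ, x.2) := rfl

theorem cx_tv {p d : ℕ} (τ : Cm p) (x : ℝ × Cm d) (a : Fin p ⊕ Fin d) :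
    cx (tv τ x) a = Sum.elim (fun k => (x.1 : ℂ) * τ k) x.2 a := by
  rcases a with k | k
  · show (x.1 • τ) k = (x.1 : ℂ) * τ k
    rw [Pi.smul_apply, Complex.real_smul]
  · rfl

/-- the coordinate `a` as a real linear map on `ℝ × ℂ^d` -/
def lc {p d : ℕ} (τ : Cm p) (a : Fin p ⊕ Fin d) : (ℝ × Cm d) →L[ℝ] ℂ :=
  (Sum.elim (fun k => (ContinuousLinearMap.proj (R := ℝ) k).comp
      (ContinuousLinearMap.fst ℝ (Cm p) (Cm d)))
    (fun k => (ContinuousLinearMap.proj (R := ℝ) k).comp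
      (ContinuousLinearMap.snd ℝ (Cm p) (Cm d))) a : (Cm p × Cm d) →L[ℝ] ℂ).comp (tv τ)

theorem lc_apply {p d : ℕ} (τ : Cm p) (a : Fin p ⊕ Fin d) (x : ℝ × Cm d) :
    lc τ a x = cx (tv τ x) a := by
  rcases a with k | k <;> rfl

/-- real and imaginary part of the coordinate -/
def lr {p d : ℕ} (τ : Cm p) (a : Fin p ⊕ Fin d) : (ℝ × Cm d) →L[ℝ] ℝ :=
  Complex.reCLM.comp (lc τ a)

/-- real and imaginary part of the coordinate -/
def li {p d : ℕ} (τ : Cm p) (a : Fin p ⊕ Fin d) : (ℝ × Cm d) →L[ℝ] ℝ :=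
  Complex.imCLM.comp (lc τ a)

/-- the bilinear form `Im (ℓ_a(x) * conj ℓ_b(y))` -/
def CI {p d : ℕ} (τ : Cm p) (a b : Fin p ⊕ Fin d) : Bi d :=
  (li τ a).smulRight (lr τ b) - (lr τ a).smulRight (li τ b)

/-- the bilinear form `Re (ℓ_a(x) * conj ℓ_b(y))` -/
def CR {p d : ℕ} (τ : Cm p) (a b : Fin p ⊕ Fin d) : Bi d :=
  (lr τ a).smulRight (lr τ b) + (li τ a).smulRight (li τ b)

theorem CI_apply {p d : ℕ} (τ : Cm p) (a b : Fin p ⊕ Fin d) (x y : ℝ × Cm d) :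
    CI τ a b x y = (cx (tv τ x) a * conj (cx (tv τ y) b)).im := by
  have h : CI τ a b x y = (lc τ a x).im * (lc τ b y).re - (lc τ a x).re * (lc τ b y).im := rfl
  rw [h, lc_apply, lc_apply, Complex.mul_im, Complex.conj_re, Complex.conj_im]
  ring

theorem CR_apply {p d : ℕ} (τ : Cm p) (a b : Fin p ⊕ Fin d) (x y : ℝ × Cm d) :
    CR τ a b x y = (cx (tv τ x) a * conj (cx (tv τ y) b)).re := by
  have h : CR τ a b x y = (lc τ a x).re * (lc τ b y).re + (lc τ a x).im * (lc τ b y).im := rfl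
  rw [h, lc_apply, lc_apply, Complex.mul_re, Complex.conj_re, Complex.conj_im]
  ring

/-- the form with coefficients `c` -/
def cf {p d : ℕ} (τ : Cm p) (c : (Fin p ⊕ Fin d) → (Fin p ⊕ Fin d) → ℂ) : Bi d :=
  ∑ i, ∑ j, ((c i j).re • CI τ i j + (c i j).im • CR τ i j)

theorem cf_apply {p d : ℕ} (τ : Cm p) (c : (Fin p ⊕ Fin d) → (Fin p ⊕ Fin d) → ℂ)
    (x y : ℝ × Cm d) :
    cf τ c x y = (∑ i, ∑ j, c i j * cx (tv τ x) i * conj (cx (tv τ y) j)).im := by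
  have h : cf τ c x y = ∑ i, ∑ j, ((c i j).re * CI τ i j x y + (c i j).im * CR τ i j x y) := by
    rw [cf]
    simp only [sum_apply, add_apply, smul_apply, smul_eq_mul]
  rw [h, Complex.im_sum]
  refine Finset.sum_congr rfl fun i _ => ?_
  rw [Complex.im_sum]
  refine Finset.sum_congr rfl fun j _ => ?_
  rw [CI_apply, CR_apply, mul_assoc, Complex.mul_im (c i j)]

/-- the trilinear form -/
def T3 {p d : ℕ} (φ : (Fin p ⊕ Fin d) → (Fin p ⊕ Fin d) → ((Cm p × Cm d) →L[ℝ] ℂ))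
    (x y z : Fin p ⊕ Fin d → ℂ) : ℂ :=
  ∑ i, ∑ j, ∑ e, pl (φ i j) e * x e * y i * conj (z j)

theorem T3_symm {p d : ℕ} (φ : (Fin p ⊕ Fin d) → (Fin p ⊕ Fin d) → ((Cm p × Cm d) →L[ℝ] ℂ))
    (hpl : ∀ i j e, pl (φ i j) e = pl (φ e j) i) (x y z : Fin p ⊕ Fin d → ℂ) :
    T3 φ x y z = T3 φ y x z := by
  have h1 : ∀ x y : Fin p ⊕ Fin d → ℂ, T3 φ x y z =
      ∑ j, ∑ i, ∑ e, pl (φ i j) e * x e * y i * conj (z j) := by
    intro x y
    rw [T3, Finset.sum_comm]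
  rw [h1, h1]
  refine Finset.sum_congr rfl fun j _ => ?_
  rw [Finset.sum_comm]
  refine Finset.sum_congr rfl fun e _ => Finset.sum_congr rfl fun i _ => ?_
  rw [hpl i j e]
  ring

theorem T3_key {p d : ℕ} (φ : (Fin p ⊕ Fin d) → (Fin p ⊕ Fin d) → ((Cm p × Cm d) →L[ℝ] ℂ))
    (hpb : ∀ i j e, pb (φ i j) e = conj (pl (φ j i) e)) (ξ η ζ : Cm p × Cm d) :
    (∑ i, ∑ j, φ i j ξ * cx η i * conj (cx ζ j)) =
      T3 φ (cx ξ) (cx η) (cx ζ) + conj (T3 φ (cx ξ) (cx ζ) (cx η)) := by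
  have h3 : conj (T3 φ (cx ξ) (cx ζ) (cx η)) =
      ∑ i, ∑ j, ∑ e, pb (φ i j) e * conj (cx ξ e) * cx η i * conj (cx ζ j) := by
    rw [T3, Finset.sum_comm, map_sum]
    refine Finset.sum_congr rfl fun i _ => ?_
    rw [map_sum]
    refine Finset.sum_congr rfl fun j _ => ?_
    rw [map_sum]
    refine Finset.sum_congr rfl fun e _ => ?_
    rw [hpb, map_mul, map_mul, map_mul, Complex.conj_conj]
    ring
  rw [h3, T3, ← Finset.sum_add_distrib]
  refine Finset.sum_congr rfl fun i _ => ?_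
  rw [← Finset.sum_add_distrib]
  refine Finset.sum_congr rfl fun j _ => ?_
  rw [← Finset.sum_add_distrib, real_linear (φ i j) ξ, Finset.sum_mul, Finset.sum_mul]
  refine Finset.sum_congr rfl fun e _ => ?_
  ring

theorem T3_closed {p d : ℕ} (τ : Cm p)
    (φ : (Fin p ⊕ Fin d) → (Fin p ⊕ Fin d) → ((Cm p × Cm d) →L[ℝ] ℂ))
    (hpl : ∀ i j e, pl (φ i j) e = pl (φ e j) i)
    (hpb : ∀ i j e, pb (φ i j) e = conj (pl (φ j i) e))
    (B : (ℝ × Cm d) →L[ℝ] Bi d) (hB : ∀ x, B x = cf τ fun i j => φ i j (tv τ x)) : ClosedB B := by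
  have key : ∀ x y z : ℝ × Cm d, B x y z =
      (T3 φ (cx (tv τ x)) (cx (tv τ y)) (cx (tv τ z))).im -
        (T3 φ (cx (tv τ x)) (cx (tv τ z)) (cx (tv τ y))).im := by
    intro x y z
    rw [hB, cf_apply, T3_key φ hpb, Complex.add_im, Complex.conj_im]
    ring
  intro x y z
  rw [key, key, key, key, key, key, T3_symm φ hpl (cx (tv τ y)) (cx (tv τ x)) (cx (tv τ z)),
    T3_symm φ hpl (cx (tv τ z)) (cx (tv τ x)) (cx (tv τ y)),
    T3_symm φ hpl (cx (tv τ z)) (cx (tv τ y)) (cx (tv τ x))]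
  ring

theorem gen_deriv {ι V F : Type} [Fintype ι] [NormedAddCommGroup V] [NormedSpace ℝ V]
    [NormedAddCommGroup F] [NormedSpace ℝ F] (C D : ι → ι → F) {q : V} (w : ι → ι → V → ℂ)
    (ψ : ι → ι → V →L[ℝ] ℂ) (hw : ∀ i j, HasFDerivAt (w i j) (ψ i j) q) :
    ∃ L : V →L[ℝ] F,
      HasFDerivAt (fun x => ∑ i, ∑ j, ((w i j x).re • C i j + (w i j x).im • D i j)) L q ∧
      ∀ x, L x = ∑ i, ∑ j, ((ψ i j x).re • C i j + (ψ i j x).im • D i j) := by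
  refine ⟨∑ i, ∑ j, ((Complex.reCLM.comp (ψ i j)).smulRight (C i j) +
        (Complex.imCLM.comp (ψ i j)).smulRight (D i j)), ?_, ?_⟩
  · refine HasFDerivAt.fun_sum fun i _ => HasFDerivAt.fun_sum fun j _ => ?_
    have h1 : HasFDerivAt (fun x => (w i j x).re) (Complex.reCLM.comp (ψ i j)) q :=
      Complex.reCLM.hasFDerivAt.comp q (hw i j)
    have h2 : HasFDerivAt (fun x => (w i j x).im) (Complex.imCLM.comp (ψ i j)) q :=
      Complex.imCLM.hasFDerivAt.comp q (hw i j)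
    exact (h1.smul_const (C i j)).add (h2.smul_const (D i j))
  · intro x
    rw [sum_apply]
    refine Finset.sum_congr rfl fun i _ => ?_
    rw [sum_apply]
    rfl

theorem gen_smooth {ι V F : Type} [Fintype ι] [NormedAddCommGroup V] [NormedSpace ℝ V]
    [NormedAddCommGroup F] [NormedSpace ℝ F] (C D : ι → ι → F) {q : V} (w : ι → ι → V → ℂ)
    (hw : ∀ i j, ContDiffAt ℝ ∞ (w i j) q) :
    ContDiffAt ℝ ∞ (fun x => ∑ i, ∑ j, ((w i j x).re • C i j + (w i j x).im • D i j)) q := by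
  refine ContDiffAt.sum fun i _ => ContDiffAt.sum fun j _ => ?_
  have h1 : ContDiffAt ℝ ∞ (fun x => (w i j x).re) q :=
    Complex.reCLM.contDiff.contDiffAt.comp q (hw i j)
  have h2 : ContDiffAt ℝ ∞ (fun x => (w i j x).im) q :=
    Complex.imCLM.contDiff.contDiffAt.comp q (hw i j)
  exact (h1.smul contDiffAt_const).add (h2.smul contDiffAt_const)

theorem alg5_form (p d : ℕ) (τ : Cm p)
    (W : Cm p × Cm d → Matrix (Fin p ⊕ Fin d) (Fin p ⊕ Fin d) ℂ)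
    (t₀ : Cm p) (q : ℝ × Cm d) (b : ℝ × Cm d → Bi d)
    (hs : ∀ a c, ContDiffAt ℝ ∞ (fun x => W x a c) (t₀ + (q.1 : ℂ) • τ, q.2))
    (hH : ∀ᶠ x in 𝓝 (t₀ + (q.1 : ℂ) • τ, q.2), (W x).IsHermitian)
    (hc : ∀ a c e, dzT e (fun x => W x a c) (t₀ + (q.1 : ℂ) • τ, q.2) =
      dzT a (fun x => W x e c) (t₀ + (q.1 : ℂ) • τ, q.2))
    (hb : ∀ᶠ x : ℝ × Cm d in 𝓝 q, IsImForm τ (W (t₀ + (x.1 : ℂ) • τ, x.2)) (b x)) :
    ContDiffAt ℝ ∞ b q ∧ ClosedB (fderiv ℝ b q) := by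
  -- the path
  set γ : ℝ × Cm d → Cm p × Cm d := fun x => (t₀, 0) + tv τ x with hγ
  have hγe : ∀ x : ℝ × Cm d, γ x = (t₀ + (x.1 : ℂ) • τ, x.2) := by
    intro x
    simp only [hγ, tv_apply]
    ext k
    · simp
    · simp
  have hγd : HasFDerivAt γ (tv τ) q := (tv τ).hasFDerivAt.const_add _
  have hγs : ContDiffAt ℝ ∞ γ q := contDiffAt_const.add (tv τ).contDiff.contDiffAt
  set Q : Cm p × Cm d := (t₀ + (q.1 : ℂ) • τ, q.2) with hQ
  have hγq : γ q = Q := hγe q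
  -- the form
  have hbe : b =ᶠ[𝓝 q] fun x => cf τ fun i j => W (γ x) i j := by
    filter_upwards [hb] with x hx
    refine ContinuousLinearMap.ext fun y => ContinuousLinearMap.ext fun z => ?_
    rw [hx y z, cf_apply]
    simp only [cx_tv, hγe]
  have hWs : ∀ i j, ContDiffAt ℝ ∞ (fun x => W (γ x) i j) q := by
    intro i j
    refine ContDiffAt.comp (g := fun x => W x i j) q ?_ hγs
    rw [hγq]
    exact hs i j
  refine ⟨(gen_smooth (CI (d := d) τ) (CR (d := d) τ) (fun i j x => W (γ x) i j)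
    hWs).congr_of_eventuallyEq hbe, ?_⟩
  rw [hbe.fderiv_eq]
  -- the derivative
  set φ : (Fin p ⊕ Fin d) → (Fin p ⊕ Fin d) → ((Cm p × Cm d) →L[ℝ] ℂ) :=
    fun i j => fderiv ℝ (fun x => W x i j) Q with hφ
  have hWd : ∀ i j, HasFDerivAt (fun x => W (γ x) i j) ((φ i j).comp (tv τ)) q := by
    intro i j
    refine HasFDerivAt.comp (g := fun x => W x i j) q ?_ hγd
    rw [hγq]
    exact ((hs i j).differentiableAt (by simp)).hasFDerivAt
  obtain ⟨L, hL, hLx⟩ := gen_deriv (CI (d := d) τ) (CR (d := d) τ) (fun i j x => W (γ x) i j) _ hWd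
  have hL' : fderiv ℝ (fun x => cf (d := d) τ fun i j => W (γ x) i j) q = L := hL.fderiv
  rw [hL']
  -- antilinear parts
  have hconj : ∀ i j, ∀ ξ, φ i j ξ = conj (φ j i ξ) := by
    intro i j ξ
    have h1 : (fun x => W x i j) =ᶠ[𝓝 Q] fun x => conj (W x j i) := by
      filter_upwards [hH] with x hx
      exact (hx.apply i j).symm
    have h2 : HasFDerivAt (fun x => conj (W x j i))
        ((Complex.conjCLE : ℂ →L[ℝ] ℂ).comp (φ j i)) Q :=
      (Complex.conjCLE : ℂ →L[ℝ] ℂ).hasFDerivAt.comp Q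
        ((hs j i).differentiableAt (by simp)).hasFDerivAt
    show fderiv ℝ (fun x => W x i j) Q ξ = _
    rw [h1.fderiv_eq, h2.fderiv]
    rfl
  exact T3_closed τ φ (fun i j e => hc i j e) (fun i j e => pb_conj (hconj i j) e) L
    fun x => hLx x

/-- **ALG5** -/
theorem alg5 : Alg5Stmt :=
  ⟨fun p d τ W t₀ q b hs hH hc hb => alg5_form p d τ W t₀ q b hs hH hc hb,
    fun _ _ _ _ hU hU' => alg5_prod hU hU'⟩

end Vale.Agent.P281.H603.K
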