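import Vale.Agent.P281.H511.TK.Spec

/-!
# P281, theorem T-K (helper603): sub-block ALG6 of FLAT
-/

open Set Filter Metric
open scoped Topology ContDiff ComplexConjugate ComplexOrder Matrix

noncomputable section

namespace Vale.Agent.P281.H603.K

open Vale.Agent.P281.H64.TK Vale.Agent.P281.H511.TK
open Vale.Agent.P281.H64 (Cm Mark)

theorem det_shear {d : ℕ} (c : Cm d) (A : Cm d →L[ℝ] Cm d) (L : (ℝ × Cm d) →L[ℝ] (ℝ × Cm d))
    (h : ∀ s ζ, L (s, ζ) = (s, s • c + A ζ)) : L.det = A.det := by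
  have h1 : (L : (ℝ × Cm d) →ₗ[ℝ] (ℝ × Cm d)) =
      (LinearMap.transvection (LinearMap.fst ℝ ℝ (Cm d)) ((0, c) : ℝ × Cm d)) ∘ₗ
        LinearMap.prodMap LinearMap.id (A : Cm d →ₗ[ℝ] Cm d) := by
    apply LinearMap.ext
    rintro ⟨s, ζ⟩
    rw [LinearMap.comp_apply, LinearMap.transvection.apply]
    show L (s, ζ) = (s, A ζ) + s • ((0, c) : ℝ × Cm d)
    rw [h]
    ext
    · simp
    · simp [add_comm]
  show LinearMap.det (L : (ℝ × Cm d) →ₗ[ℝ] (ℝ × Cm d)) = LinearMap.det (A : Cm d →ₗ[ℝ] Cm d)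
  rw [h1, LinearMap.det_comp, LinearMap.transvection.det, LinearMap.det_prodMap, LinearMap.det_id]
  simp

/-- **ALG6** -/
theorem alg6 : Alg6Stmt := by
  refine ⟨fun d c A L h => det_shear c A L h, fun d θ z hθ => ?_⟩
  have h1 : fderiv ℝ θ z = (fderiv ℂ θ z).restrictScalars ℝ :=
    (hθ.hasFDerivAt.restrictScalars ℝ).fderiv
  have h2 : (fderiv ℝ θ z).det =
      LinearMap.det ((fderiv ℂ θ z : Cm d →ₗ[ℂ] Cm d).restrictScalars ℝ) := by
    rw [h1]; rfl
  have h3 : LinearMap.det (fderiv ℂ θ z : Cm d →ₗ[ℂ] Cm d) = (jac θ z).det := by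
    rw [← LinearMap.det_toMatrix']
    congr 1
  rw [h2, LinearMap.det_restrictScalars, Algebra.norm_complex_apply, h3,
    Complex.normSq_eq_norm_sq]

end Vale.Agent.P281.H603.K
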