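import Vale.Agent.P281.H603.K.Dep

/-!
# P281, theorem T-K, block D (helper603): analyticity
-/

open Set Filter Metric
open scoped Topology

namespace Vale.Agent.P281.H603.K

open Vale.Agent.P281.H64.TK
open Vale.Agent.P281.H64 (Cm Mark)

/-- Osgood on a finite-dimensional space: continuous and differentiable in the directions of a
basis implies differentiable. -/
theorem osgood_dir {V : Type*} [NormedAddCommGroup V] [NormedSpace ℂ V] [FiniteDimensional ℂ V]
    {κ : Type*} [Finite κ] (b : Module.Basis κ ℂ V) {O : Set V} (hO : IsOpen O) {f : V → ℂ}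
    (hc : ∀ x ∈ O, ContinuousAt f x)
    (hd : ∀ x ∈ O, ∀ k, DifferentiableAt ℂ (fun s : ℂ => f (x + s • b k)) 0) :
    DifferentiableOn ℂ f O := by
  have := Fintype.ofFinite κ
  set n := Fintype.card κ with hn
  set b' : Module.Basis (Fin n) ℂ V := b.reindex (Fintype.equivFin κ) with hb'
  set e : V ≃L[ℂ] (Fin n → ℂ) := b'.equivFunL with he
  have he1 : ∀ i, e.symm (Pi.single i 1) = b' i := by
    intro i
    rw [ContinuousLinearEquiv.symm_apply_eq]
    funext j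
    simp [he, Pi.single_apply, Finsupp.single_apply, eq_comm]
  set g : (Fin n → ℂ) → ℂ := fun y => f (e.symm y) with hg
  have hO' : IsOpen (e.symm ⁻¹' O) := hO.preimage e.symm.continuous
  have h1 : DifferentiableOn ℂ g (e.symm ⁻¹' O) := by
    refine P272.GEO.osgood hO' (fun y hy => ?_) fun y hy i => ?_
    · exact (ContinuousAt.comp (g := f) (hc _ hy) e.symm.continuous.continuousAt).continuousWithinAt
    · have h2 := hd (e.symm y) hy ((Fintype.equivFin κ).symm i)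
      have h3 : b ((Fintype.equivFin κ).symm i) = e.symm (Pi.single i 1) := by
        rw [he1, hb', Module.Basis.reindex_apply]
      rw [h3] at h2
      have h4 : DifferentiableAt ℂ (fun τ : ℂ => τ - y i) (y i) := by fun_prop
      have h5 : DifferentiableAt ℂ (fun s : ℂ => f (e.symm y + s • e.symm (Pi.single i 1)))
          ((fun τ : ℂ => τ - y i) (y i)) := by simpa using h2
      have h6 := DifferentiableAt.comp
        (g := fun s : ℂ => f (e.symm y + s • e.symm (Pi.single i 1)))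
        (f := fun τ : ℂ => τ - y i) (y i) h5 h4
      have h7 : (fun τ : ℂ => g (Function.update y i τ)) =
          (fun s : ℂ => f (e.symm y + s • e.symm (Pi.single i 1))) ∘ fun τ : ℂ => τ - y i := by
        funext τ
        simp only [Function.comp_apply, hg]
        rw [← map_smul, ← map_add]
        congr 2
        funext j
        by_cases hj : j = i
        · subst hj; simp
        · simp [hj]
      rw [h7]
      exact h6
  intro x hx
  have h2 : DifferentiableAt ℂ g (e x) := h1.differentiableAt (hO'.mem_nhds (by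
    show e.symm (e x) ∈ O
    rwa [e.symm_apply_apply]))
  have h3 : f = g ∘ e := by
    funext y
    simp [hg]
  rw [h3]
  exact (DifferentiableAt.comp x h2 e.differentiableAt).differentiableWithinAt

variable {p d : ℕ} {E Γ : Type} [TopologicalSpace E] [T2Space E] [SimplyConnectedSpace E] [Group Γ]
  [MulAction Γ E] [ContinuousConstSMul Γ E]
  {𝓕 : Fam p d E Γ} {T' : Set (Cm p)}
  {u : Cm p → Fin 𝓕.N → Cm d → ℂ} {c : Cm p → Γ → ℂ}

theorem Dat.continuousAt (D : Dat 𝓕 T' u c) {n : ℕ} (M : Mark Γ n)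
    {I : Set (Fin n)} (hG : ∀ t (ht : t ∈ T'), Good (𝓕.at t (D.sub ht)) M I) (i₀ : Fin 𝓕.N)
    {a₀ : ℂ} (h0 : ∀ t ∈ T', u t i₀ 0 = a₀) {a : Fin n → ℂ}
    (hI : ∀ m ∈ I, ∀ t ∈ T', c t (M.g m) = a m) {t₁ : Cm p} (ht₁ : t₁ ∈ T') :
    (∀ i, ∀ z ∈ ball (0 : Cm d) 2,
      ContinuousAt (fun x : Cm p × Cm d => u x.1 i x.2) (t₁, z)) ∧
      ∀ γ, ContinuousAt (fun t => c t γ) t₁ := by
  have hT : ∀ᶠ t in 𝓝 t₁, t ∈ T' := D.isOpen.mem_nhds ht₁
  obtain ⟨v, ε, -, h2, h3, -, -⟩ := conv 𝓕 (D.sub ht₁) (D.seq ht₁) M (hG t₁ ht₁) i₀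
    (a₀ := a₀) (tendsto_const_nhds.congr' (hT.mono fun t ht => (h0 t ht).symm)) (a := a)
    (fun m hm => tendsto_const_nhds.congr' (hT.mono fun t ht => (hI m hm t ht).symm))
  refine ⟨fun i z hz => ?_, fun γ => ?_⟩
  · have h4 := h2 i z hz
    rw [← nhds_prod_eq] at h4
    exact continuousAt_of_tendsto_nhds h4
  · exact continuousAt_of_tendsto_nhds (h3 γ)

theorem Dat.differentiableAt (D : Dat 𝓕 T' u c) {n : ℕ} (M : Mark Γ n)
    {I : Set (Fin n)} (hG : ∀ t (ht : t ∈ T'), Good (𝓕.at t (D.sub ht)) M I) (i₀ : Fin 𝓕.N)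
    {a₀ : ℂ} (h0 : ∀ t ∈ T', u t i₀ 0 = a₀) {a : Fin n → ℂ}
    (hI : ∀ m ∈ I, ∀ t ∈ T', c t (M.g m) = a m) {t₁ : Cm p} (ht₁ : t₁ ∈ T') (x : Cm p) :
    (∀ i, ∀ z ∈ ball (0 : Cm d) 2,
      DifferentiableAt ℂ (fun s : ℂ => u (t₁ + s • x) i z) 0) ∧
      ∀ γ, DifferentiableAt ℂ (fun s : ℂ => c (t₁ + s • x) γ) 0 := by
  obtain ⟨B, hB⟩ := D.exists_seq ht₁ x
  have hT : ∀ᶠ s : ℂ in 𝓝[≠] (0 : ℂ), t₁ + s • x ∈ T' :=
    hB.lim.eventually (D.isOpen.mem_nhds ht₁)
  obtain ⟨v, ε, -, h2, h3, -, -⟩ := conv 𝓕 (D.sub ht₁) hB M (hG t₁ ht₁) i₀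
    (a₀ := 0) (tendsto_const_nhds.congr' (hT.mono fun s hs => by
      beta_reduce; rw [h0 _ hs, h0 t₁ ht₁]; ring)) (a := fun _ => 0)
    (fun m hm => tendsto_const_nhds.congr' (hT.mono fun s hs => by
      beta_reduce; rw [hI m hm _ hs, hI m hm t₁ ht₁]; ring))
  refine ⟨fun i z hz => ?_, fun γ => ?_⟩
  · have h4 : Tendsto (fun s : ℂ => s⁻¹ * (u (t₁ + s • x) i z - u t₁ i z)) (𝓝[≠] 0)
        (𝓝 (v i z)) :=
      tendsto_of_prod (f := fun s z => s⁻¹ * (u (t₁ + s • x) i z - u t₁ i z)) (h2 i z hz)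
        tendsto_const_nhds
    have h5 : HasDerivAt (fun s : ℂ => u (t₁ + s • x) i z) (v i z) 0 := by
      rw [hasDerivAt_iff_tendsto_slope_zero]
      simpa using h4
    exact h5.differentiableAt
  · have h5 : HasDerivAt (fun s : ℂ => c (t₁ + s • x) γ) (ε γ) 0 := by
      rw [hasDerivAt_iff_tendsto_slope_zero]
      simpa using h3 γ
    exact h5.differentiableAt

/-- **Analyticity in the parameter.** -/
theorem Dat.analytic (D : Dat 𝓕 T' u c) {n : ℕ} (M : Mark Γ n)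
    {I : Set (Fin n)} (hG : ∀ t (ht : t ∈ T'), Good (𝓕.at t (D.sub ht)) M I) (i₀ : Fin 𝓕.N)
    {a₀ : ℂ} (h0 : ∀ t ∈ T', u t i₀ 0 = a₀) {a : Fin n → ℂ}
    (hI : ∀ m ∈ I, ∀ t ∈ T', c t (M.g m) = a m) :
    (∀ i, ∀ t ∈ T', ∀ z ∈ ball (0 : Cm d) 3,
      AnalyticAt ℂ (fun x : Cm p × Cm d => u x.1 i x.2) (t, z)) ∧
      ∀ γ, ∀ t ∈ T', AnalyticAt ℂ (fun t => c t γ) t := by
  have hcont := fun t (ht : t ∈ T') => D.continuousAt M hG i₀ h0 hI ht
  have hdiff := fun t (ht : t ∈ T') => D.differentiableAt M hG i₀ h0 hI ht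
  have hc : ∀ γ, ∀ t ∈ T', AnalyticAt ℂ (fun t => c t γ) t := by
    intro γ t ht
    exact MF.analyticAt_of_differentiableOn D.isOpen (osgood_dir (Pi.basisFun ℂ (Fin p)) D.isOpen
      (fun t ht => (hcont t ht).2 γ) (fun t ht k => (hdiff t ht _).2 γ)) ht
  have h2 : ∀ i, ∀ t ∈ T', ∀ z ∈ ball (0 : Cm d) 2,
      AnalyticAt ℂ (fun x : Cm p × Cm d => u x.1 i x.2) (t, z) := by
    intro i t ht z hz
    have h3 : DifferentiableOn ℂ (fun x : Cm p × Cm d => u x.1 i x.2) (T' ×ˢ ball (0 : Cm d) 2) := by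
      refine osgood_dir ((Pi.basisFun ℂ (Fin p)).prod (Pi.basisFun ℂ (Fin d)))
        (D.isOpen.prod isOpen_ball) ?_ ?_
      · rintro ⟨t, z⟩ ⟨ht, hz⟩
        exact (hcont t ht).1 i z hz
      · rintro ⟨t, z⟩ ⟨ht, hz⟩ (k | k)
        · have h4 := (hdiff t ht (Pi.basisFun ℂ (Fin p) k)).1 i z hz
          simpa using h4
        · have h4 : DifferentiableAt ℂ (u t i) z :=
            (D.hol t ht i).differentiableAt
              (isOpen_ball.mem_nhds (ball_subset_ball (by norm_num) hz))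
          have h5 : DifferentiableAt ℂ (fun s : ℂ => z + s • (Pi.single k 1 : Cm d)) 0 := by
            fun_prop
          have h6 : DifferentiableAt ℂ (u t i) ((fun s : ℂ => z + s • (Pi.single k 1 : Cm d)) 0) := by
            simpa using h4
          have h7 := DifferentiableAt.comp (0 : ℂ) h6 h5
          simpa [Function.comp_def] using h7
    exact MF.analyticAt_of_differentiableOn (D.isOpen.prod isOpen_ball) h3 ⟨ht, hz⟩
  refine ⟨fun i t ht z hz => ?_, hc⟩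
  obtain ⟨γ, j, w, hw, he⟩ := 𝓕.cover t (D.sub ht) (𝓕.σ i t z)
  have hw3 : w ∈ ball (0 : Cm d) 3 := by rw [mem_ball_zero_iff]; linarith
  have hw2 : w ∈ ball (0 : Cm d) 2 := by rw [mem_ball_zero_iff]; linarith
  obtain ⟨θ, k1, k2, k3⟩ := exists_trans 𝓕 (D.sub ht) hz hw3 he.symm
  have hT : ∀ᶠ x : Cm p × Cm d in 𝓝 (t, z), x.1 ∈ T' :=
    (continuous_fst.tendsto (t, z)).eventually (D.isOpen.mem_nhds ht)
  have h3 : (fun x : Cm p × Cm d => u x.1 i x.2) =ᶠ[𝓝 (t, z)]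
      fun x => u x.1 j (θ x) + c x.1 γ := by
    filter_upwards [hT, k3] with x k4 k5
    exact D.rel x.1 k4 i j _ k5.2.1 _ k5.2.2.1 γ k5.2.2.2.1
  refine AnalyticAt.congr ?_ h3.symm
  have h4 : AnalyticAt ℂ (fun x : Cm p × Cm d => (x.1, θ x)) (t, z) := analyticAt_fst.prod k1
  have h5 : AnalyticAt ℂ (fun x : Cm p × Cm d => u x.1 j (θ x)) (t, z) := by
    have h6 : AnalyticAt ℂ (fun x : Cm p × Cm d => u x.1 j x.2) (t, θ (t, z)) := by
      rw [k2]
      exact h2 j t ht w hw2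
    exact AnalyticAt.comp (g := fun x : Cm p × Cm d => u x.1 j x.2)
      (f := fun x : Cm p × Cm d => (x.1, θ x)) h6 h4
  have h7 : AnalyticAt ℂ (fun x : Cm p × Cm d => c x.1 γ) (t, z) :=
    AnalyticAt.comp (g := fun t => c t γ) (f := fun x : Cm p × Cm d => x.1) (hc γ t ht)
      analyticAt_fst
  exact h5.add h7

end Vale.Agent.P281.H603.K
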