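import Vale.Agent.P281.H603.K.Proper

/-!
# P281, theorem T-K (helper603): the Kähler metric on the fibres
-/

open Set Filter Metric
open Vale.Agent.P272.K (dz)
open scoped Topology ContDiff ComplexConjugate ComplexOrder

noncomputable section

namespace Vale.Agent.P281.H603.K

open Vale.Agent.P281.H64.TK
open Vale.Agent.P281.H64 (Cm Mark)

theorem bv_inr {p d : ℕ} (l : Fin d) : bv (p := p) (Sum.inr l : Fin p ⊕ Fin d) =
    (0, Pi.single l 1) := rfl

theorem I_bv_inr {p d : ℕ} (l : Fin d) : Complex.I • bv (p := p) (Sum.inr l : Fin p ⊕ Fin d) =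
    (0, Pi.single l Complex.I) := by
  rw [bv_inr, Prod.smul_mk, smul_zero]
  congr 1
  funext k
  by_cases hk : k = l
  · subst hk; simp
  · simp [hk]

/-- the derivative along the fibre -/
theorem fderiv_fib {p d : ℕ} {f : Cm p × Cm d → ℂ} {t : Cm p} {z : Cm d}
    (hf : DifferentiableAt ℝ f (t, z)) (v : Cm d) :
    fderiv ℝ (fun u : Cm d => f (t, u)) z v = fderiv ℝ f (t, z) (0, v) := by
  have h1 : HasFDerivAt (fun u : Cm d => (t, u)) (ContinuousLinearMap.inr ℝ (Cm p) (Cm d)) z :=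
    hasFDerivAt_prodMk_right t z
  have h2 : HasFDerivAt (fun u : Cm d => f (t, u))
      ((fderiv ℝ f (t, z)).comp (ContinuousLinearMap.inr ℝ (Cm p) (Cm d))) z :=
    HasFDerivAt.comp z hf.hasFDerivAt h1
  rw [h2.fderiv]
  rfl

theorem cfderiv_fib {p d m : ℕ} {f : Cm p × Cm d → Cm m} {t : Cm p} {z : Cm d}
    (hf : DifferentiableAt ℂ f (t, z)) (v : Cm d) :
    fderiv ℂ (fun u : Cm d => f (t, u)) z v = fderiv ℂ f (t, z) (0, v) := by
  have h1 : HasFDerivAt (fun u : Cm d => (t, u)) (ContinuousLinearMap.inr ℂ (Cm p) (Cm d)) z :=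
    hasFDerivAt_prodMk_right t z
  have h2 : HasFDerivAt (fun u : Cm d => f (t, u))
      ((fderiv ℂ f (t, z)).comp (ContinuousLinearMap.inr ℂ (Cm p) (Cm d))) z :=
    HasFDerivAt.comp z hf.hasFDerivAt h1
  rw [h2.fderiv]
  rfl

theorem dzT_inr {p d : ℕ} {f : Cm p × Cm d → ℂ} {t : Cm p} {z : Cm d}
    (hf : DifferentiableAt ℝ f (t, z)) (l : Fin d) :
    dz l (fun u : Cm d => f (t, u)) z = dzT (Sum.inr l) f (t, z) := by
  unfold dz dzT
  rw [I_bv_inr, bv_inr, fderiv_fib hf, fderiv_fib hf]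

variable {p d : ℕ} {E Γ : Type} [TopologicalSpace E] [Group Γ] [MulAction Γ E]

/-- the Kähler metric on the manifold number `t` -/
theorem kah_fib {𝓕 : Fam p d E Γ}
    {W : Fin 𝓕.N → Cm p × Cm d → Matrix (Fin p ⊕ Fin d) (Fin p ⊕ Fin d) ℂ} (hW : KFam 𝓕 W)
    {t : Cm p} (ht : t ∈ 𝓕.T) : Kah (𝓕.at t ht) (fibW W t) where
  smooth i j k := by
    intro z hz
    have h1 : ContDiffAt ℝ ∞ (fun q => W i q (Sum.inr j) (Sum.inr k)) (t, z) :=
      hW.smooth i t ht z hz _ _
    have h2 : ContDiffAt ℝ ∞ (fun u : Cm d => (t, u)) z := by fun_prop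
    exact (ContDiffAt.comp (g := fun q => W i q (Sum.inr j) (Sum.inr k)) z h1 h2).contDiffWithinAt
  posDef i z hz := by
    have h1 := (hW.posDef i t ht z hz).submatrix (e := (Sum.inr : Fin d → Fin p ⊕ Fin d))
      Sum.inr_injective
    exact h1
  closed i z hz j k l := by
    have h1 := hW.closed i t ht z hz (Sum.inr j) (Sum.inr k) (Sum.inr l)
    have h2 : DifferentiableAt ℝ (fun q => W i q (Sum.inr j) (Sum.inr k)) (t, z) :=
      (hW.smooth i t ht z hz _ _).differentiableAt (by simp)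
    have h3 : DifferentiableAt ℝ (fun q => W i q (Sum.inr l) (Sum.inr k)) (t, z) :=
      (hW.smooth i t ht z hz _ _).differentiableAt (by simp)
    rw [← dzT_inr h2, ← dzT_inr h3] at h1
    exact h1
  change i j z hz z' hz' γ θ hθ hθz hr := by
    have hr0 : 𝓕.σ i t z = γ • 𝓕.σ j t z' := by
      have := hr.self_of_nhds
      rwa [hθz] at this
    obtain ⟨Θ, h1, h2, h3⟩ := exists_trans 𝓕 ht hz hz' hr0
    have h4 := hW.change i j t ht z hz z' hz' γ Θ h1 h2 (h3.mono fun q hq => hq.2.2.2.1)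
    -- the two transition maps agree
    have h5 : θ =ᶠ[𝓝 z] fun u => Θ (t, u) := by
      have h6 : Tendsto (fun u : Cm d => (t, u)) (𝓝 z) (𝓝 (t, z)) :=
        (by fun_prop : Continuous fun u : Cm d => (t, u)).tendsto z
      have h7 : ∀ᶠ u in 𝓝 z, θ u ∈ ball (0 : Cm d) 3 :=
        hθ.continuousAt.eventually (isOpen_ball.mem_nhds (hθz.symm ▸ hz'))
      filter_upwards [hr, h7, h6.eventually h3] with u k1 k2 k3
      exact (k3.2.2.2.2 _ k2 γ k1).2
    have h6 : ∀ (l a : Fin d), jacT Θ (t, z) (Sum.inr l) (Sum.inr a) = jac θ z l a := by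
      intro l a
      show fderiv ℂ Θ (t, z) (bv (Sum.inr a)) l = fderiv ℂ θ z (Pi.single a 1) l
      rw [h5.fderiv_eq, bv_inr, cfderiv_fib h1.differentiableAt]
    have h7 : ∀ (k : Fin p) (a : Fin d), jacT Θ (t, z) (Sum.inl k) (Sum.inr a) = 0 := by
      intro k a
      rfl
    ext a b
    show W i (t, z) (Sum.inr a) (Sum.inr b) = _
    rw [h4]
    simp only [Matrix.mul_apply, Matrix.transpose_apply, Matrix.map_apply, Fintype.sum_sum_type, h6,
      h7, zero_mul, Finset.sum_const_zero, zero_add, map_zero, mul_zero]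
    rfl

end Vale.Agent.P281.H603.K
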