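import Vale.Agent.P281.H603.K.Lin
import Vale.Agent.P281.H603.K.Dep2
import Vale.Agent.P281.H603.K.Fib

/-!
# P281, theorem T-K (helper603): block D, holomorphic dependence of the additive functions
-/

open Set Filter Metric
open scoped Topology

namespace Vale.Agent.P281.H603.K

open Vale.Agent.P281.H64.TK
open Vale.Agent.P281.H64 (Cm Mark)

/-- **Block D**, dimension `d`, from the fibrewise C2. -/
theorem basis_of_c2 {p d : ℕ} {E Γ : Type} [TopologicalSpace E] [T2Space E]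
    [SimplyConnectedSpace E] [Group Γ] [MulAction Γ E] [ContinuousConstSMul Γ E]
    (𝓕 : Fam p d E Γ) (hC2 : ∀ (t : Cm p) (ht : t ∈ 𝓕.T), C2K (𝓕.at t ht)) (n : ℕ) (M : Mark Γ n)
    (t₀ : Cm p) (ht₀ : t₀ ∈ 𝓕.T) : ∃ (g : ℕ) (T' : Set (Cm p)) (hT' : T' ⊆ 𝓕.T)
      (F : Cm p → E → Fin g → ℂ)
      (c : Cm p → Γ → Fin g → ℂ), n = 2 * g ∧ IsOpen T' ∧ t₀ ∈ T' ∧
      (∀ (t : Cm p) (ht : t ∈ T'), IsBas (𝓕.at t (hT' ht)) (F t) (c t)) ∧
      (∀ i, ∀ t ∈ T', ∀ z ∈ ball (0 : Cm d) 3, ∀ j,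
        AnalyticAt ℂ (fun q : Cm p × Cm d => F q.1 (𝓕.σ i q.1 q.2) j) (t, z)) ∧
      ∀ γ j, ∀ t ∈ T', AnalyticAt ℂ (fun s => c s γ j) t := by
  classical
  have hne : Nonempty E := inferInstance
  obtain ⟨i₀⟩ : Nonempty (Fin 𝓕.N) := by
    obtain ⟨e⟩ := hne
    obtain ⟨-, i, -⟩ := 𝓕.cover t₀ ht₀ e
    exact ⟨i⟩
  set W := perSub (𝓕.at t₀ ht₀) M with hW
  set g := Module.finrank ℂ W with hg
  have hn : n = 2 * g := finrank_perSub (𝓕.at t₀ ht₀) (hC2 t₀ ht₀) M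
  obtain ⟨a, ha⟩ := exists_coords W
  set T' : Set (Cm p) := {t | ∃ ht : t ∈ 𝓕.T, Good (𝓕.at t ht) M (range a)} with hT'def
  have hT' : T' ⊆ 𝓕.T := fun t ht => ht.1
  have hopen : IsOpen T' := by
    rw [isOpen_iff_mem_nhds]
    rintro t ⟨ht, hG⟩
    exact good_open 𝓕 M (range a) ht hG
  have h₀ : t₀ ∈ T' := by
    refine ⟨ht₀, fun h c H hI => ?_⟩
    have h1 : (fun l => c (M.g l)) = (0 : Fin n → ℂ) :=
      ha _ ⟨h, c, H, fun _ => rfl⟩ (fun j => hI _ ⟨j, rfl⟩)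
    intro γ
    rw [mark_complex M (add_hom H) γ]
    exact Finset.sum_eq_zero fun l _ => by rw [congrFun h1 l]; simp
  have hex : ∀ t, ∃ (F : E → Fin g → ℂ) (c : Γ → Fin g → ℂ), ∀ ht : t ∈ T',
      (∀ j, Add (𝓕.at t (hT' ht)) (fun e => F e j) (fun γ => c γ j)) ∧
      (∀ j l, c (M.g (a l)) j = if l = j then 1 else 0) ∧ ∀ j, F (𝓕.σ i₀ t 0) j = 0 := by
    intro t
    by_cases ht : t ∈ T'
    · obtain ⟨F, c, h⟩ := exists_dual (𝓕.at t (hT' ht)) (hC2 t (hT' ht)) hn M a ht.2 i₀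
      exact ⟨F, c, fun _ => h⟩
    · exact ⟨fun _ _ => 0, fun _ _ => 0, fun h => absurd h ht⟩
  choose F c hFc using hex
  have hdat : ∀ j, Dat 𝓕 T' (fun t i z => F t (𝓕.σ i t z) j) (fun t γ => c t γ j) := by
    intro j
    refine ⟨hT', hopen, fun t ht i => ((hFc t ht).1 j).hol i,
      fun t ht a b => add_hom ((hFc t ht).1 j) a b, ?_⟩
    intro t ht i i' z _ w _ γ h
    have h1 := ((hFc t ht).1 j).add γ (𝓕.σ i' t w)
    rw [← h] at h1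
    exact h1
  have hana := fun j => (hdat j).analytic M (I := range a) (fun t ht => ht.2) i₀ (a₀ := 0)
    (fun t ht => (hFc t ht).2.2 j) (a := fun m => c t₀ (M.g m) j) (by
      rintro _ ⟨l, rfl⟩ t ht
      rw [(hFc t ht).2.1 j l, (hFc t₀ h₀).2.1 j l])
  refine ⟨g, T', hT', F, c, hn, hopen, h₀, fun t ht => ?_, ?_, ?_⟩
  · exact isBas_of_dual (M := M) (a := a) ht.2 (hFc t ht).1 (hFc t ht).2.1
  · intro i t ht z hz j
    exact (hana j).1 i t ht z hz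
  · intro γ j t ht
    exact (hana j).2 γ t ht

/-- **Block D**: `C2Stmt → DStmt`. -/
theorem dStmt (hC2 : C2Stmt) : DStmt := by
  intro p d E Γ _ _ _ _ _ _ 𝓕 W hd hW n M t₀ ht₀
  exact basis_of_c2 𝓕 (fun t ht => (hC2 d E Γ (𝓕.at t ht) (fibW W t) hd (kah_fib hW ht)).1) n M
    t₀ ht₀

end Vale.Agent.P281.H603.K
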