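import Vale.Agent.P281.H511.TK.Spec
import Vale.Agent.P281.H603.K.D

/-!
# P281, theorem T-K (helper603): sub-block FL-D of FLAT
-/

open Set Filter Metric
open scoped Topology ContDiff

noncomputable section

namespace Vale.Agent.P281.H603.K

open Vale.Agent.P281.H64.TK Vale.Agent.P281.H511.TK
open Vale.Agent.P281.H64 (Cm Mark)

/-- **FL-D** -/
theorem flD (hC2 : C2Stmt) : FlDStmt := by
  classical
  intro p d E Γ _ _ _ _ _ _ 𝓕 W hd hW n M t₀ ht₀
  obtain ⟨g, T', hT', F, c, hn, hopen, h₀, hbas, hF, hc⟩ :=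
    dStmt hC2 p d E Γ 𝓕 W hd hW n M t₀ ht₀
  have hne : Nonempty E := inferInstance
  -- the real periods
  set A : Cm p → ((Fin g → ℂ) →L[ℝ] (Fin n → ℝ)) := fun t => ContinuousLinearMap.pi fun l =>
    ∑ j, Complex.reCLM.comp ((ContinuousLinearMap.mul ℝ ℂ (c t (M.g l) j)).comp
      (ContinuousLinearMap.proj j)) with hA
  have hAa : ∀ t y l, A t y l = (∑ j, y j * c t (M.g l) j).re := by
    intro t y l
    simp only [hA, ContinuousLinearMap.coe_pi', ContinuousLinearMap.sum_apply,
      ContinuousLinearMap.comp_apply, ContinuousLinearMap.proj_apply, Complex.reCLM_apply,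
      ContinuousLinearMap.mul_apply', Complex.re_sum]
    exact Finset.sum_congr rfl fun j _ => by rw [mul_comm]
  have hAs : ContDiffOn ℝ ∞ A T' := by
    rw [contDiffOn_clm_apply]
    intro y
    rw [contDiffOn_pi]
    intro l t ht
    have h1 : ∀ j, ContDiffAt ℝ ∞ (fun t => y j * c t (M.g l) j) t := by
      intro j
      have h2 : ContDiffAt ℂ ∞ (fun t => c t (M.g l) j) t := (hc (M.g l) j t ht).contDiffAt
      exact contDiffAt_const.mul (h2.restrict_scalars ℝ)
    have h3 : ContDiffAt ℝ ∞ (fun t => ∑ j, y j * c t (M.g l) j) t :=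
      ContDiffAt.sum fun j _ => h1 j
    have h4 : ContDiffAt ℝ ∞ (fun t => A t y l) t := by
      have h5 : (fun t => A t y l) = fun t => Complex.reCLM (∑ j, y j * c t (M.g l) j) := by
        funext t
        rw [hAa]
        rfl
      rw [h5]
      exact Complex.reCLM.contDiff.contDiffAt.comp t h3
    exact h4.contDiffWithinAt
  -- additive functions with given coefficients
  have hadd : ∀ t (ht : t ∈ T') (s : Fin g → ℂ),
      Add (𝓕.at t (hT' ht)) (fun e => ∑ j, s j * F t e j) (fun γ => ∑ j, s j * c t γ j) :=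
    fun t ht s => add_sum (h := fun j e => F t e j) (c := fun j γ => c t γ j) (hbas t ht).add s
  have hinj : ∀ t ∈ T', Function.Injective (A t) := by
    intro t ht
    rw [injective_iff_map_eq_zero]
    intro s hs
    have h1 := hadd t ht s
    have h2 : ∀ γ, (∑ j, s j * c t γ j).re = 0 := by
      intro γ
      rw [M.complete (fun γ => (∑ j, s j * c t γ j).re)
        (fun x y => by rw [add_hom h1, Complex.add_re]) γ]
      refine Finset.sum_eq_zero fun l _ => ?_
      rw [← hAa, hs]
      simp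
    refine (hbas t ht).indep s fun γ => ?_
    obtain ⟨e⟩ := hne
    have h3 := h1.add γ e
    rw [unique_of_re _ h1 h2 (γ • e) e] at h3
    linear_combination - h3
  have hfin : Module.finrank ℝ (Fin g → ℂ) = Module.finrank ℝ (Fin n → ℝ) := by
    rw [finrank_real_of_complex, Module.finrank_fintype_fun_eq_card,
      Module.finrank_fintype_fun_eq_card, Fintype.card_fin, Fintype.card_fin, hn]
  have hequiv : ∀ t ∈ T', ∃ e : (Fin g → ℂ) ≃L[ℝ] (Fin n → ℝ), (e : _ →L[ℝ] _) = A t := by
    intro t ht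
    refine ⟨(LinearEquiv.ofInjectiveOfFinrankEq (A t : (Fin g → ℂ) →ₗ[ℝ] (Fin n → ℝ))
      (hinj t ht) hfin).toContinuousLinearEquiv, ?_⟩
    ext y l
    rfl
  set s : Fin n → Cm p → (Fin g → ℂ) := fun k t =>
    ContinuousLinearMap.inverse (A t) (Pi.single k 1) with hs
  have hsA : ∀ k, ∀ t ∈ T', A t (s k t) = Pi.single k 1 := by
    intro k t ht
    obtain ⟨e, he⟩ := hequiv t ht
    simp only [hs]
    rw [← he, ContinuousLinearMap.inverse_equiv]
    exact e.apply_symm_apply _
  have hsd : ∀ k, ∀ t ∈ T', ContDiffAt ℝ ∞ (s k) t := by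
    intro k t ht
    obtain ⟨e, he⟩ := hequiv t ht
    have h1 : ContDiffAt ℝ ∞ A t := (hAs t ht).contDiffAt (hopen.mem_nhds ht)
    have h2 : ContDiffAt ℝ ∞ ContinuousLinearMap.inverse (A t) := by
      rw [← he]
      exact contDiffAt_map_inverse e
    exact (h2.comp t h1).clm_apply contDiffAt_const
  refine ⟨T', hT', fun k t e => ∑ j, s k t j * F t e j, hopen, h₀, fun k t ht => ?_,
    fun k i t ht z hz => ?_⟩
  · refine ⟨_, hadd t ht (s k t), fun γ => ?_⟩
    rw [M.complete (fun γ => (∑ j, s k t j * c t γ j).re)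
      (fun x y => by rw [add_hom (hadd t ht (s k t)), Complex.add_re]) γ]
    have h1 : ∀ l, (∑ j, s k t j * c t (M.g l) j).re = (Pi.single k 1 : Fin n → ℝ) l := by
      intro l
      rw [← hAa, hsA k t ht]
    rw [Finset.sum_eq_single k]
    · rw [h1]; simp
    · intro l _ hl
      rw [h1]; simp [hl]
    · intro h
      exact absurd (Finset.mem_univ k) h
  · have h1 : ContDiffAt ℝ ∞ (fun q : Cm p × Cm d => s k q.1) (t, z) :=
      ContDiffAt.comp (t, z) (hsd k t ht) contDiffAt_fst
    refine ContDiffAt.sum fun j _ => ?_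
    have h2 : ContDiffAt ℝ ∞ (fun q : Cm p × Cm d => s k q.1 j) (t, z) :=
      (contDiffAt_pi.1 h1) j
    have h3 : ContDiffAt ℂ ∞ (fun q : Cm p × Cm d => F q.1 (𝓕.σ i q.1 q.2) j) (t, z) :=
      (hF i t ht z hz j).contDiffAt
    exact h2.mul (h3.restrict_scalars ℝ)

end Vale.Agent.P281.H603.K
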