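import Vale.Agent.P281.H603.K.Base
import Vale.Agent.P281.H383.F1

/-!
# P281, theorem T-K (helper603): block F1 (after helper383, dimension one)
-/

open Set Filter Metric
open scoped Topology

noncomputable section

namespace Vale.Agent.P281.H603.K

open Vale.Agent.P281.H64.TK
open Vale.Agent.P281.H64 (Cm Mark)

section
variable {d : ℕ} {E Γ : Type} [TopologicalSpace E] [Group Γ] [MulAction Γ E]
  [ContinuousConstSMul Γ E] (S : Sheets d E Γ)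

theorem fin_pair (i j : Fin S.N) :
    {γ : Γ | ∃ z w : Cm d, ‖z‖ ≤ 1 ∧ w ∈ closedBall (0 : Cm d) 1 ∧
      γ • S.σ j z = S.σ i w}.Finite := by
  refine (isCompact_closedBall (0 : Cm d) 1).induction_on
    (p := fun N => {γ : Γ | ∃ z w : Cm d, ‖z‖ ≤ 1 ∧ w ∈ N ∧ γ • S.σ j z = S.σ i w}.Finite)
    ?_ ?_ ?_ ?_
  · refine Set.finite_empty.subset ?_
    rintro γ ⟨z, w, -, hw, -⟩
    exact hw
  · intro s t hst ht
    refine ht.subset ?_
    rintro γ ⟨z, w, hz, hw, h⟩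
    exact ⟨z, w, hz, hst hw, h⟩
  · intro s t hs ht
    refine (hs.union ht).subset ?_
    rintro γ ⟨z, w, hz, hw | hw, h⟩
    · exact Or.inl ⟨z, w, hz, hw, h⟩
    · exact Or.inr ⟨z, w, hz, hw, h⟩
  · intro w hw
    have hw3 : w ∈ ball (0 : Cm d) 3 := by
      rw [mem_closedBall_zero_iff] at hw
      rw [mem_ball_zero_iff]; linarith
    by_cases hC : S.σ i w ∈ {e : E | ∃ (γ : Γ) (z : Cm d), ‖z‖ ≤ 1 ∧ γ • S.σ j z = e}
    · obtain ⟨γ₀, z₀, hz₀, h₀⟩ := hC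
      have hz3 : z₀ ∈ ball (0 : Cm d) 3 := by rw [mem_ball_zero_iff]; linarith
      have hO : (fun u => γ₀ • S.σ j u) '' ball (0 : Cm d) 3 ∈ 𝓝 (S.σ i w) :=
        (Sh.isOpen_image_smul S γ₀ j isOpen_ball le_rfl).mem_nhds ⟨z₀, hz3, h₀⟩
      refine ⟨S.σ i ⁻¹' ((fun u => γ₀ • S.σ j u) '' ball (0 : Cm d) 3),
        mem_nhdsWithin_of_mem_nhds ((Sh.contAt S i hw3).preimage_mem_nhds hO), ?_⟩
      refine (Set.finite_singleton γ₀).subset ?_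
      rintro γ ⟨z, u, hz, ⟨y, hy, hy'⟩, h⟩
      have h1 : (γ₀⁻¹ * γ) • S.σ j z = S.σ j y := by
        rw [mul_smul, h, ← hy']
        exact inv_smul_smul _ _
      have h2 := (S.inj j z (by rw [mem_ball_zero_iff]; linarith) y hy _ h1).1
      exact (inv_mul_eq_one.1 h2).symm
    · have hO := (S.closed j 1 (by norm_num)).isOpen_compl.mem_nhds hC
      refine ⟨S.σ i ⁻¹' {e : E | ∃ (γ : Γ) (z : Cm d), ‖z‖ ≤ 1 ∧ γ • S.σ j z = e}ᶜ,
        mem_nhdsWithin_of_mem_nhds ((Sh.contAt S i hw3).preimage_mem_nhds hO), ?_⟩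
      refine Set.finite_empty.subset ?_
      rintro γ ⟨z, u, hz, hu, h⟩
      exact hu ⟨γ, z, hz, h⟩

include S in
theorem fg_of [ConnectedSpace E] : Group.FG Γ := by
  classical
  let Sg : Set Γ := ⋃ i : Fin S.N, ⋃ j : Fin S.N,
    {γ : Γ | ∃ z w : Cm d, ‖z‖ ≤ 1 ∧ w ∈ closedBall (0 : Cm d) 1 ∧ γ • S.σ j z = S.σ i w}
  have hfin : Sg.Finite := Set.finite_iUnion fun i => Set.finite_iUnion fun j => fin_pair S i j
  rw [Group.fg_iff]
  refine ⟨Sg, ?_, hfin⟩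
  set H := Subgroup.closure Sg with hH
  have key : ∀ γ γ' : Γ, ∀ i j : Fin S.N, ∀ z w : Cm d, ‖z‖ < 1 → ‖w‖ < 1 →
      γ • S.σ i z = γ' • S.σ j w → γ ∈ H → γ' ∈ H := by
    intro γ γ' i j z w hz hw h hγ
    have h1 : (γ⁻¹ * γ') • S.σ j w = S.σ i z := by rw [mul_smul, ← h, inv_smul_smul]
    have h2 : γ⁻¹ * γ' ∈ H := Subgroup.subset_closure (mem_iUnion.2 ⟨i, mem_iUnion.2 ⟨j,
      w, z, hw.le, by rw [mem_closedBall_zero_iff]; exact hz.le, h1⟩⟩)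
    have h3 := H.mul_mem hγ h2
    rwa [mul_inv_cancel_left] at h3
  let A : Set E := {e | ∃ γ ∈ H, ∃ (i : Fin S.N) (z : Cm d), ‖z‖ < 1 ∧ γ • S.σ i z = e}
  have hop : ∀ P : Γ → Prop, IsOpen {e : E | ∃ γ, P γ ∧ ∃ (i : Fin S.N) (z : Cm d), ‖z‖ < 1 ∧
      γ • S.σ i z = e} := by
    intro P
    have h1 : {e : E | ∃ γ, P γ ∧ ∃ (i : Fin S.N) (z : Cm d), ‖z‖ < 1 ∧ γ • S.σ i z = e} =
        ⋃ γ : Γ, ⋃ _ : P γ, ⋃ i : Fin S.N, (fun u => γ • S.σ i u) '' ball (0 : Cm d) 1 := by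
      ext e
      simp only [mem_ofPred_eq, mem_iUnion, mem_image, mem_ball_zero_iff, exists_prop]
    rw [h1]
    exact isOpen_iUnion fun γ => isOpen_iUnion fun _ => isOpen_iUnion fun i =>
      Sh.isOpen_image_smul S γ i isOpen_ball (ball_subset_ball (by norm_num))
  have hA : IsOpen A := hop (fun γ => γ ∈ H)
  have hA' : Aᶜ = {e : E | ∃ γ, γ ∉ H ∧ ∃ (i : Fin S.N) (z : Cm d), ‖z‖ < 1 ∧
      γ • S.σ i z = e} := by
    ext e
    constructor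
    · intro he
      obtain ⟨γ, i, z, hz, h⟩ := S.cover e
      exact ⟨γ, fun hγ => he ⟨γ, hγ, i, z, hz, h⟩, i, z, hz, h⟩
    · rintro ⟨γ, hγ, i, z, hz, rfl⟩ ⟨γ', hγ', j, w, hw, h⟩
      exact hγ (key γ' γ j i w z hw hz h hγ')
  have hcl : IsClopen A := ⟨⟨by rw [hA']; exact hop _⟩, hA⟩
  obtain ⟨e₀⟩ : Nonempty E := inferInstance
  obtain ⟨γ₀, i₀, z₀, hz₀, -⟩ := S.cover e₀
  have hne : A.Nonempty := ⟨S.σ i₀ z₀, 1, H.one_mem, i₀, z₀, hz₀, one_smul _ _⟩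
  have hu : A = univ := hcl.eq_univ hne
  rw [eq_top_iff]
  intro γ _
  have h1 : γ • S.σ i₀ z₀ ∈ A := by rw [hu]; exact mem_univ _
  obtain ⟨γ', hγ', j, w, hw, h⟩ := h1
  exact key γ' γ j i₀ w z₀ hw hz₀ h hγ'

end

/-- **F1** -/
theorem f1 : F1Stmt := by
  intro d E Γ _ _ _ _ _ _ S _
  have : Group.FG Γ := fg_of S
  exact H383.exists_mark

end Vale.Agent.P281.H603.K
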