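import Vale.Agent.P281.H64.TK.Spec
import Vale.Agent.P272.GEO.Osgood

/-!
# P281, theorem T-K, block D (helper603): limits of bounded holomorphic functions

Along an ultrafilter, bounded holomorphic functions on a disc converge, locally uniformly.
-/

open Set Filter Metric
open scoped Topology

namespace Vale.Agent.P281.H603.K

open Vale.Agent.P281.H64.TK
open Vale.Agent.P281.H64 (Cm Mark)

/-- Lipschitz bound at the centre, from Schwarz. -/
theorem dist_le_of_bound {d : ℕ} {f : Cm d → ℂ} {z₀ z : Cm d} {r C : ℝ}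
    (hd : DifferentiableOn ℂ f (ball z₀ r)) (hb : ∀ w ∈ ball z₀ r, ‖f w‖ ≤ C)
    (hz : z ∈ ball z₀ r) : dist (f z) (f z₀) ≤ 2 * C / r * dist z z₀ := by
  have hr : 0 < r := nonempty_ball.mp ⟨z, hz⟩
  refine Complex.dist_le_div_mul_dist_of_mapsTo_ball hd (fun w hw => ?_) hz
  rw [mem_closedBall, dist_eq_norm]
  have h1 := hb w hw
  have h2 := hb z₀ (mem_ball_self hr)
  calc ‖f w - f z₀‖ ≤ ‖f w‖ + ‖f z₀‖ := norm_sub_le _ _
    _ ≤ 2 * C := by linarith

/-- Montel along an ultrafilter. -/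
theorem exists_limit {d : ℕ} {ι : Type*} (U : Ultrafilter ι) {f : ι → Cm d → ℂ} {R C : ℝ}
    (hf : ∀ᶠ k in (U : Filter ι), DifferentiableOn ℂ (f k) (ball 0 R))
    (hb : ∀ᶠ k in (U : Filter ι), ∀ z ∈ ball (0 : Cm d) R, ‖f k z‖ ≤ C) :
    ∃ v : Cm d → ℂ, DifferentiableOn ℂ v (ball 0 R) ∧ ∀ z ∈ ball (0 : Cm d) R,
      Tendsto (fun q : ι × Cm d => f q.1 q.2) ((U : Filter ι) ×ˢ 𝓝 z) (𝓝 (v z)) := by
  -- pointwise limits
  have h1 : ∀ z : Cm d, ∃ y : ℂ, z ∈ ball (0 : Cm d) R → Tendsto (fun k => f k z) U (𝓝 y) := by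
    intro z
    by_cases hz : z ∈ ball (0 : Cm d) R
    · have h2 : ((U.map fun k => f k z : Ultrafilter ℂ) : Filter ℂ) ≤ 𝓟 (closedBall 0 C) := by
        rw [le_principal_iff]
        show (fun k => f k z) ⁻¹' closedBall 0 C ∈ (U : Filter ι)
        filter_upwards [hb] with k hk
        simpa using hk z hz
      obtain ⟨y, -, hy⟩ := (isCompact_closedBall (0 : ℂ) C).ultrafilter_le_nhds _ h2
      exact ⟨y, fun _ => hy⟩
    · exact ⟨0, fun h => absurd h hz⟩
  choose v hv using h1
  -- the key estimate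
  have key : ∀ z₀ ∈ ball (0 : Cm d) R, ∀ ε > (0 : ℝ), ∃ δ > (0 : ℝ), ball z₀ δ ⊆ ball 0 R ∧
      ∀ᶠ k in (U : Filter ι), ∀ z ∈ ball z₀ δ, dist (f k z) (v z₀) < ε := by
    intro z₀ hz₀ ε hε
    obtain ⟨r, hr, hrR⟩ := Metric.isOpen_iff.1 isOpen_ball z₀ hz₀
    have hC : ∃ C' : ℝ, 0 < C' ∧ C ≤ C' := ⟨|C| + 1, by positivity, by linarith [le_abs_self C]⟩
    obtain ⟨C', hC', hCC'⟩ := hC
    refine ⟨min r (ε / 2 * r / (2 * C')), by positivity, (ball_subset_ball (min_le_left _ _)).trans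
      hrR, ?_⟩
    filter_upwards [hf, hb, (hv z₀ hz₀).eventually (ball_mem_nhds _ (half_pos hε))] with k h1 h2 h3
    intro z hz
    have h4 : z ∈ ball z₀ r := ball_subset_ball (min_le_left _ _) hz
    have h5 := dist_le_of_bound (h1.mono hrR) (fun w hw => (h2 w (hrR hw)).trans hCC') h4
    have h6 : dist z z₀ < ε / 2 * r / (2 * C') :=
      (mem_ball.1 hz).trans_le (min_le_right _ _)
    have h7 : 2 * C' / r * dist z z₀ < ε / 2 := by
      rw [lt_div_iff₀ (by positivity)] at h6
      rw [div_mul_eq_mul_div, div_lt_iff₀ hr]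
      linarith
    calc dist (f k z) (v z₀) ≤ dist (f k z) (f k z₀) + dist (f k z₀) (v z₀) := dist_triangle _ _ _
      _ < ε := by
        have := mem_ball.1 h3
        linarith
  have hcont : ∀ z₀ ∈ ball (0 : Cm d) R, ∀ ε > (0 : ℝ), ∃ δ > (0 : ℝ), ball z₀ δ ⊆ ball 0 R ∧
      ∀ z ∈ ball z₀ δ, dist (v z) (v z₀) < ε := by
    intro z₀ hz₀ ε hε
    obtain ⟨δ, hδ, h1, h2⟩ := key z₀ hz₀ (ε / 2) (half_pos hε)
    refine ⟨δ, hδ, h1, fun z hz => ?_⟩
    have h3 : dist (v z) (v z₀) ≤ ε / 2 := by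
      refine le_of_tendsto ((hv z (h1 hz)).dist tendsto_const_nhds) ?_
      filter_upwards [h2] with k hk using (hk z hz).le
    linarith
  refine ⟨v, ?_, ?_⟩
  · have hL : TendstoLocallyUniformlyOn f v U (ball 0 R) := by
      rw [Metric.tendstoLocallyUniformlyOn_iff]
      intro ε hε z₀ hz₀
      obtain ⟨δ, hδ, h1, h2⟩ := key z₀ hz₀ (ε / 2) (half_pos hε)
      obtain ⟨δ', hδ', h1', h2'⟩ := hcont z₀ hz₀ (ε / 2) (half_pos hε)
      refine ⟨ball z₀ (min δ δ'), mem_nhdsWithin_of_mem_nhds (ball_mem_nhds _ (by positivity)), ?_⟩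
      filter_upwards [h2] with k hk z hz
      have h3 := hk z (ball_subset_ball (min_le_left _ _) hz)
      have h4 := h2' z (ball_subset_ball (min_le_right _ _) hz)
      calc dist (v z) (f k z) ≤ dist (v z) (v z₀) + dist (f k z) (v z₀) :=
            dist_triangle_right _ _ _
        _ < ε := by linarith
    have hc : ∀ z ∈ ball (0 : Cm d) R, ContinuousAt v z := by
      intro z hz
      rw [Metric.continuousAt_iff]
      intro ε hε
      obtain ⟨δ, hδ, -, h2⟩ := hcont z hz ε hε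
      exact ⟨δ, hδ, fun {y} hy => h2 y hy⟩
    refine P272.GEO.osgood isOpen_ball (fun z hz => (hc z hz).continuousWithinAt) fun x hx i => ?_
    have hup : Continuous fun τ : ℂ => (Function.update x i τ : Cm d) :=
      continuous_const.update i continuous_id
    set O : Set ℂ := (fun τ : ℂ => (Function.update x i τ : Cm d)) ⁻¹' ball 0 R with hO
    have hOo : IsOpen O := isOpen_ball.preimage hup
    have hOx : x i ∈ O := by
      show Function.update x i (x i) ∈ ball (0 : Cm d) R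
      rwa [Function.update_eq_self]
    have hdu : ∀ k : ι, DifferentiableOn ℂ (f k) (ball 0 R) →
        DifferentiableOn ℂ (fun τ : ℂ => f k (Function.update x i τ)) O := by
      intro k hk τ hτ
      have h1 : DifferentiableAt ℂ (f k) (Function.update x i τ) :=
        hk.differentiableAt (isOpen_ball.mem_nhds hτ)
      have h2 : DifferentiableAt ℂ (fun τ : ℂ => (Function.update x i τ : Cm d)) τ :=
        (hasDerivAt_update x i τ).differentiableAt
      exact (DifferentiableAt.comp (g := f k) τ h1 h2).differentiableWithinAt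
    have hL' : TendstoLocallyUniformlyOn (fun k τ => f k (Function.update x i τ))
        (fun τ => v (Function.update x i τ)) (U : Filter ι) O :=
      hL.comp (fun τ : ℂ => (Function.update x i τ : Cm d)) (fun τ hτ => hτ) hup.continuousOn
    have h3 := hL'.differentiableOn (hf.mono fun k hk => hdu k hk) hOo
    exact h3.differentiableAt (hOo.mem_nhds hOx)
  · intro z hz
    rw [Metric.tendsto_nhds]
    intro ε hε
    obtain ⟨δ, hδ, -, h2⟩ := key z hz ε hε
    filter_upwards [h2.prod_mk (ball_mem_nhds z hδ)] with q hq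
    exact hq.1 _ hq.2

/-- Along an ultrafilter, a bounded sequence converges. -/
theorem exists_lim_of_bound {V : Type*} [NormedAddCommGroup V] [ProperSpace V] {ι : Type*}
    (U : Ultrafilter ι) {f : ι → V} {C : ℝ}
    (hb : ∀ᶠ k in (U : Filter ι), ‖f k‖ ≤ C) : ∃ y : V, ‖y‖ ≤ C ∧ Tendsto f U (𝓝 y) := by
  have h2 : ((U.map f : Ultrafilter V) : Filter V) ≤ 𝓟 (closedBall 0 C) := by
    rw [le_principal_iff]
    show f ⁻¹' closedBall 0 C ∈ (U : Filter ι)
    filter_upwards [hb] with k hk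
    simpa using hk
  obtain ⟨y, hy', hy⟩ := (isCompact_closedBall (0 : V) C).ultrafilter_le_nhds _ h2
  exact ⟨y, by simpa using hy', hy⟩

/-- Along an ultrafilter, a map to a finite type is eventually constant. -/
theorem eventually_const_of_finite {ι κ : Type*} [Finite κ] (U : Ultrafilter ι) (a : ι → κ) :
    ∃ b, ∀ᶠ k in (U : Filter ι), a k = b := by
  have h : ∀ᶠ k in (U : Filter ι), ∃ b, a k = b := Eventually.of_forall fun k => ⟨a k, rfl⟩
  exact Ultrafilter.eventually_exists_iff.1 h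

end Vale.Agent.P281.H603.K
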