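import Vale.Agent.P281.H603.K.Bound

/-!
# P281, theorem T-K, block D (helper603): convergence
-/

open Set Filter Metric
open scoped Topology

namespace Vale.Agent.P281.H603.K

open Vale.Agent.P281.H64.TK
open Vale.Agent.P281.H64 (Cm Mark)

variable {p d : ℕ} {E Γ : Type} [TopologicalSpace E] [T2Space E] [SimplyConnectedSpace E] [Group Γ]
  [MulAction Γ E] [ContinuousConstSMul Γ E]

/-- **Convergence.** -/
theorem conv (𝓕 : Fam p d E Γ) {ι : Type} {l : Filter ι} [l.NeBot]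
    {t : ι → Cm p} {t₁ : Cm p} (ht₁ : t₁ ∈ 𝓕.T) {u : ι → Fin 𝓕.N → Cm d → ℂ} {e : ι → Γ → ℂ}
    {B : Fin 𝓕.N → Fin 𝓕.N → Γ → Cm d → Cm d → ℂ} (H : Seq 𝓕 l t t₁ u e B) {n : ℕ}
    (M : Mark Γ n) {I : Set (Fin n)} (hG : Good (𝓕.at t₁ ht₁) M I) (i₀ : Fin 𝓕.N) {a₀ : ℂ}
    (h0 : Tendsto (fun k => u k i₀ 0) l (𝓝 a₀)) {a : Fin n → ℂ}
    (hI : ∀ m ∈ I, Tendsto (fun k => e k (M.g m)) l (𝓝 (a m))) :
    ∃ (v : Fin 𝓕.N → Cm d → ℂ) (ε : Γ → ℂ), (∀ i, DifferentiableOn ℂ (v i) (ball 0 2)) ∧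
      (∀ i, ∀ z ∈ ball (0 : Cm d) 2,
        Tendsto (fun q : ι × Cm d => u q.1 i q.2) (l ×ˢ 𝓝 z) (𝓝 (v i z))) ∧
      (∀ γ, Tendsto (fun k => e k γ) l (𝓝 (ε γ))) ∧ (∀ a b, ε (a * b) = ε a + ε b) ∧
      ∀ i j, ∀ z ∈ ball (0 : Cm d) 2, ∀ w ∈ ball (0 : Cm d) 2, ∀ γ : Γ,
        𝓕.σ i t₁ z = γ • 𝓕.σ j t₁ w → v i z - v j w - ε γ = B i j γ z w := by
  have hex : ∀ U : Ultrafilter ι, (U : Filter ι) ≤ l →
      ∃ (v : Fin 𝓕.N → Cm d → ℂ) (ε : Γ → ℂ), (∀ i, DifferentiableOn ℂ (v i) (ball 0 2)) ∧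
      (∀ i, ∀ z ∈ ball (0 : Cm d) 2,
        Tendsto (fun q : ι × Cm d => u q.1 i q.2) ((U : Filter ι) ×ˢ 𝓝 z) (𝓝 (v i z))) ∧
      (∀ γ, Tendsto (fun k => e k γ) U (𝓝 (ε γ))) ∧ (∀ a b, ε (a * b) = ε a + ε b) ∧
      ∀ i j, ∀ z ∈ ball (0 : Cm d) 2, ∀ w ∈ ball (0 : Cm d) 2, ∀ γ : Γ,
        𝓕.σ i t₁ z = γ • 𝓕.σ j t₁ w → v i z - v j w - ε γ = B i j γ z w := by
    intro U hU
    have HU := H.mono hU
    obtain ⟨C₁, hC₁⟩ : ∃ C₁ : ℝ, ∀ m ∈ I, ∀ᶠ k in (U : Filter ι), ‖e k (M.g m)‖ ≤ C₁ := by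
      refine ⟨∑ m, (‖a m‖ + 1), fun m hm => ?_⟩
      have h1 : ‖a m‖ < ∑ m, (‖a m‖ + 1) := by
        have h2 := Finset.single_le_sum (f := fun m => ‖a m‖ + 1)
          (fun m _ => by positivity) (Finset.mem_univ m)
        linarith
      filter_upwards [((hI m hm).mono_left hU).norm.eventually (ge_mem_nhds h1)] with k hk using hk
    have hC₂ : ∀ᶠ k in (U : Filter ι), ‖u k i₀ 0‖ ≤ ‖a₀‖ + 1 := by
      filter_upwards [(h0.mono_left hU).norm.eventually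
        (ge_mem_nhds (show ‖a₀‖ < ‖a₀‖ + 1 by linarith))] with k hk using hk
    obtain ⟨C, hC⟩ := bdd 𝓕 U ht₁ HU M hG i₀ (C₀ := max C₁ (‖a₀‖ + 1))
      (hC₂.mono fun k hk => hk.trans (le_max_right _ _))
      (fun m hm => (hC₁ m hm).mono fun k hk => hk.trans (le_max_left _ _))
    exact exists_limits 𝓕 U ht₁ HU M hC
  obtain ⟨v, ε, hv, hvl, hε, hadd, hrel⟩ := hex (Ultrafilter.of l) (Ultrafilter.of_le l)
  -- uniqueness
  have huniq : ∀ U : Ultrafilter ι, (U : Filter ι) ≤ l → (∀ i, ∀ z ∈ ball (0 : Cm d) 2,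
        Tendsto (fun q : ι × Cm d => u q.1 i q.2) ((U : Filter ι) ×ˢ 𝓝 z) (𝓝 (v i z))) ∧
      (∀ γ, Tendsto (fun k => e k γ) U (𝓝 (ε γ))) := by
    intro U hU
    obtain ⟨v', ε', hv', hvl', hε', hadd', hrel'⟩ := hex U hU
    have hz : (∀ γ, ε' γ - ε γ = 0) ∧ ∀ i, ∀ z ∈ ball (0 : Cm d) 2, v' i z - v i z = 0 := by
      refine eq_zero_of_good (S := 𝓕.at t₁ ht₁) (v := fun i z => v' i z - v i z)
        (ε := fun γ => ε' γ - ε γ) (i₀ := i₀) M hG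
        (fun i => (hv' i).sub (hv i)) (fun a b => by rw [hadd', hadd]; ring)
        (fun i j z hz w hw γ h => ?_) (fun m hm => ?_) ?_
      · have k1 := hrel i j z hz w hw γ h
        have k2 := hrel' i j z hz w hw γ h
        linear_combination k2 - k1
      · rw [tendsto_nhds_unique (hε' (M.g m)) ((hI m hm).mono_left hU),
          tendsto_nhds_unique (hε (M.g m)) ((hI m hm).mono_left (Ultrafilter.of_le l)), sub_self]
      · have k1 : Tendsto (fun k => u k i₀ 0) U (𝓝 (v' i₀ 0)) :=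
          tendsto_of_prod (f := fun k => u k i₀) (hvl' i₀ 0 (mem_ball_self (by norm_num)))
            tendsto_const_nhds
        have k2 : Tendsto (fun k => u k i₀ 0) (Ultrafilter.of l : Filter ι) (𝓝 (v i₀ 0)) :=
          tendsto_of_prod (f := fun k => u k i₀) (hvl i₀ 0 (mem_ball_self (by norm_num)))
            tendsto_const_nhds
        rw [tendsto_nhds_unique k1 (h0.mono_left hU),
          tendsto_nhds_unique k2 (h0.mono_left (Ultrafilter.of_le l)), sub_self]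
    refine ⟨fun i z hz' => ?_, fun γ => ?_⟩
    · rw [← sub_eq_zero.1 (hz.2 i z hz')]
      exact hvl' i z hz'
    · rw [← sub_eq_zero.1 (hz.1 γ)]
      exact hε' γ
  refine ⟨v, ε, hv, fun i z hz => ?_, fun γ => ?_, hadd, hrel⟩
  · rw [tendsto_iff_ultrafilter]
    intro W hW
    have h1 : ((W.map Prod.fst : Ultrafilter ι) : Filter ι) ≤ l := by
      rw [Ultrafilter.coe_map]
      exact (Filter.map_mono hW).trans (by
        have := tendsto_fst (f := l) (g := 𝓝 z)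
        exact this)
    have h2 : (W : Filter (ι × Cm d)) ≤ ((W.map Prod.fst : Ultrafilter ι) : Filter ι) ×ˢ 𝓝 z := by
      rw [Filter.prod_eq_inf, le_inf_iff]
      refine ⟨?_, ?_⟩
      · rw [Ultrafilter.coe_map]
        exact le_comap_map
      · exact hW.trans (by rw [Filter.prod_eq_inf]; exact inf_le_right)
    exact ((huniq _ h1).1 i z hz).mono_left h2
  · rw [tendsto_iff_ultrafilter]
    intro U hU
    exact (huniq U hU).2 γ

end Vale.Agent.P281.H603.K
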