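import Vale.Agent.P281.H603.K.Conv
import Vale.Agent.P281.MF.Hol
import Vale.Agent.P272.GEO.Osgood

/-!
# P281, theorem T-K, block D (helper603): holomorphic dependence on the parameter
-/

open Set Filter Metric
open scoped Topology

namespace Vale.Agent.P281.H603.K

open Vale.Agent.P281.H64.TK
open Vale.Agent.P281.H64 (Cm Mark)

variable {p d : ℕ} {E Γ : Type} [TopologicalSpace E] [Group Γ] [MulAction Γ E]

/-- Functions on the sheets, for all the parameters in `T'`, with constant jumps `c t`. -/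
structure Dat (𝓕 : Fam p d E Γ) (T' : Set (Cm p))
    (u : Cm p → Fin 𝓕.N → Cm d → ℂ) (c : Cm p → Γ → ℂ) : Prop where
  sub : T' ⊆ 𝓕.T
  isOpen : IsOpen T'
  hol : ∀ t ∈ T', ∀ i, DifferentiableOn ℂ (u t i) (ball 0 3)
  add : ∀ t ∈ T', ∀ a b, c t (a * b) = c t a + c t b
  rel : ∀ t ∈ T', ∀ i j, ∀ z ∈ ball (0 : Cm d) 3, ∀ w ∈ ball (0 : Cm d) 3, ∀ γ : Γ,
    𝓕.σ i t z = γ • 𝓕.σ j t w → u t i z = u t j w + c t γ

section
variable {𝓕 : Fam p d E Γ} {T' : Set (Cm p)}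
  {u : Cm p → Fin 𝓕.N → Cm d → ℂ} {c : Cm p → Γ → ℂ}

/-- The sequence for the continuity. -/
theorem Dat.seq (D : Dat 𝓕 T' u c) {t₁ : Cm p} (ht₁ : t₁ ∈ T') :
    Seq 𝓕 (𝓝 t₁) id t₁ u c (fun _ _ _ _ _ => 0) where
  lim := tendsto_id
  hol := by
    filter_upwards [D.isOpen.mem_nhds ht₁] with t ht using D.hol t ht
  add := by
    filter_upwards [D.isOpen.mem_nhds ht₁] with t ht using D.add t ht
  rel := by
    intro i j z hz w hw γ hγ U hU z' w' hz' hw' hr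
    have h1 : ∀ᶠ t in (U : Filter (Cm p)), t ∈ T' := hU (D.isOpen.mem_nhds ht₁)
    have h2 : ∀ᶠ t in (U : Filter (Cm p)), z' t ∈ ball (0 : Cm d) 3 :=
      hz'.eventually (isOpen_ball.mem_nhds hz)
    have h3 : ∀ᶠ t in (U : Filter (Cm p)), w' t ∈ ball (0 : Cm d) 3 :=
      hw'.eventually (isOpen_ball.mem_nhds hw)
    refine tendsto_const_nhds.congr' ?_
    filter_upwards [h1, h2, h3, hr] with t k1 k2 k3 k4
    have k5 := D.rel t k1 i j _ k2 _ k3 γ k4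
    linear_combination - k5

/-- The difference quotients. -/
theorem Dat.exists_seq (D : Dat 𝓕 T' u c) {t₁ : Cm p} (ht₁ : t₁ ∈ T') (x : Cm p) :
    ∃ B : Fin 𝓕.N → Fin 𝓕.N → Γ → Cm d → Cm d → ℂ,
      Seq 𝓕 (𝓝[≠] (0 : ℂ)) (fun s => t₁ + s • x) t₁
        (fun s i z => s⁻¹ * (u (t₁ + s • x) i z - u t₁ i z))
        (fun s γ => s⁻¹ * (c (t₁ + s • x) γ - c t₁ γ)) B := by
  have hlim0 : Tendsto (fun s : ℂ => t₁ + s • x) (𝓝 0) (𝓝 t₁) := by
    have : Continuous fun s : ℂ => t₁ + s • x := by fun_prop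
    simpa using this.tendsto 0
  have hlim : Tendsto (fun s : ℂ => t₁ + s • x) (𝓝[≠] (0 : ℂ)) (𝓝 t₁) :=
    hlim0.mono_left nhdsWithin_le_nhds
  have hT : ∀ᶠ s : ℂ in 𝓝[≠] (0 : ℂ), t₁ + s • x ∈ T' :=
    hlim.eventually (D.isOpen.mem_nhds ht₁)
  have hex : ∀ (i j : Fin 𝓕.N) (γ : Γ) (z w : Cm d), ∃ β : ℂ, z ∈ ball (0 : Cm d) 3 →
      w ∈ ball (0 : Cm d) 3 → 𝓕.σ i t₁ z = γ • 𝓕.σ j t₁ w →
      ∀ U : Ultrafilter ℂ, (U : Filter ℂ) ≤ 𝓝[≠] (0 : ℂ) →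
      ∀ z' w' : ℂ → Cm d, Tendsto z' U (𝓝 z) → Tendsto w' U (𝓝 w) →
        (∀ᶠ s in (U : Filter ℂ),
          𝓕.σ i (t₁ + s • x) (z' s) = γ • 𝓕.σ j (t₁ + s • x) (w' s)) →
          Tendsto (fun s => s⁻¹ * (u (t₁ + s • x) i (z' s) - u t₁ i (z' s)) -
            s⁻¹ * (u (t₁ + s • x) j (w' s) - u t₁ j (w' s)) -
            s⁻¹ * (c (t₁ + s • x) γ - c t₁ γ)) U (𝓝 β) := by
    intro i j γ z w
    by_cases hz : z ∈ ball (0 : Cm d) 3
    swap
    · exact ⟨0, fun h => absurd h hz⟩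
    by_cases hw : w ∈ ball (0 : Cm d) 3
    swap
    · exact ⟨0, fun _ h => absurd h hw⟩
    by_cases hγ : 𝓕.σ i t₁ z = γ • 𝓕.σ j t₁ w
    swap
    · exact ⟨0, fun _ _ h => absurd h hγ⟩
    obtain ⟨θ, hθ, hθw, hθr⟩ := exists_trans 𝓕 (D.sub ht₁) hz hw hγ
    have hua : AnalyticAt ℂ (u t₁ j) w :=
      MF.analyticAt_of_differentiableOn isOpen_ball (D.hol t₁ ht₁ j) hw
    have hG : AnalyticAt ℂ (fun y : Cm p × Cm d => u t₁ j (θ y)) (t₁, z) := by
      have hua' : AnalyticAt ℂ (u t₁ j) (θ (t₁, z)) := by rwa [hθw]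
      exact hua'.comp hθ
    set G : Cm p × Cm d → ℂ := fun y => u t₁ j (θ y) with hGdef
    have hGs := hG.hasStrictFDerivAt
    refine ⟨fderiv ℂ G (t₁, z) (x, 0), fun _ _ _ U hU z' w' hz' hw' hr => ?_⟩
    have hU0 : (U : Filter ℂ) ≤ 𝓝 0 := hU.trans nhdsWithin_le_nhds
    have hx : Tendsto (fun s : ℂ => (t₁ + s • x, z' s)) U (𝓝 (t₁, z)) :=
      (hlim0.mono_left hU0).prodMk_nhds hz'
    have hy : Tendsto (fun s : ℂ => (t₁, z' s)) U (𝓝 (t₁, z)) :=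
      tendsto_const_nhds.prodMk_nhds hz'
    have hne : ∀ᶠ s : ℂ in (U : Filter ℂ), s ≠ 0 := hU self_mem_nhdsWithin
    have h2 : ∀ᶠ t in (U : Filter ℂ), z' t ∈ ball (0 : Cm d) 3 :=
      hz'.eventually (isOpen_ball.mem_nhds hz)
    have h3 : ∀ᶠ t in (U : Filter ℂ), w' t ∈ ball (0 : Cm d) 3 :=
      hw'.eventually (isOpen_ball.mem_nhds hw)
    -- the strict derivative
    have key : Tendsto (fun s : ℂ => s⁻¹ * (G (t₁ + s • x, z' s) - G (t₁, z' s))) U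
        (𝓝 (fderiv ℂ G (t₁, z) (x, 0))) := by
      have h4 : (fun s : ℂ => G (t₁ + s • x, z' s) - G (t₁, z' s) -
          fderiv ℂ G (t₁, z) ((t₁ + s • x, z' s) - (t₁, z' s))) =o[(U : Filter ℂ)]
          fun s : ℂ => ((t₁ + s • x, z' s) - (t₁, z' s) : Cm p × Cm d) :=
        hGs.isLittleO.comp_tendsto (hx.prodMk_nhds hy)
      have h5 : ∀ s : ℂ, ((t₁ + s • x, z' s) - (t₁, z' s) : Cm p × Cm d) =
          s • (x, (0 : Cm d)) := by
        intro s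
        ext <;> simp
      have h6 : (fun s : ℂ => ((t₁ + s • x, z' s) - (t₁, z' s) : Cm p × Cm d))
          =O[(U : Filter ℂ)] fun s : ℂ => s := by
        refine Asymptotics.IsBigO.of_bound ‖(x, (0 : Cm d))‖ (Eventually.of_forall fun s => ?_)
        rw [h5, norm_smul, mul_comm]
      have h7 := (h4.trans_isBigO h6).tendsto_inv_smul_nhds_zero
      have h8 := h7.add_const (fderiv ℂ G (t₁, z) (x, 0))
      rw [zero_add] at h8
      refine h8.congr' ?_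
      filter_upwards [hne] with s hs
      rw [h5, map_smul, smul_eq_mul, smul_eq_mul]
      field_simp
      ring
    refine key.congr' ?_
    filter_upwards [hU hT, h2, h3, hr, hx.eventually hθr, hy.eventually hθr] with s k1 k2 k3 k4 k5
      k6
    have k7 := (k5.2.2.2.2 _ k3 γ k4).2
    have k8 := D.rel _ k1 i j _ k2 _ k3 γ k4
    have k9 := D.rel t₁ ht₁ i j _ k2 _ k6.2.2.1 γ k6.2.2.2.1
    simp only [hGdef]
    rw [← k7]
    linear_combination (s⁻¹) * k9 - (s⁻¹) * k8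
  choose B hB using hex
  refine ⟨B, hlim, ?_, ?_, ?_⟩
  · filter_upwards [hT] with s hs i
    exact ((D.hol _ hs i).sub (D.hol t₁ ht₁ i)).const_mul _
  · filter_upwards [hT] with s hs a b
    rw [D.add _ hs, D.add t₁ ht₁]
    ring
  · intro i j z hz w hw γ hγ U hU z' w' hz' hw' hr
    exact hB i j γ z w hz hw hγ U hU z' w' hz' hw' hr

end

end Vale.Agent.P281.H603.K
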