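import Vale.Agent.P281.H603.K.Proper
import Vale.Agent.P281.H603.K.Lim

/-!
# P281, theorem T-K, block D (helper603): additive functions from functions on the sheets
-/

open Set Filter Metric
open scoped Topology

namespace Vale.Agent.P281.H603.K

open Vale.Agent.P281.H64.TK
open Vale.Agent.P281.H64 (Cm Mark)

section sheets
variable {d : ℕ} {E Γ : Type} [TopologicalSpace E] [Group Γ] [MulAction Γ E]

theorem map_one_of_add {e : Γ → ℂ} (he : ∀ a b, e (a * b) = e a + e b) : e 1 = 0 := by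
  have := he 1 1
  rw [one_mul] at this
  linear_combination - this

theorem map_inv_of_add {e : Γ → ℂ} (he : ∀ a b, e (a * b) = e a + e b) (a : Γ) :
    e a⁻¹ = - e a := by
  have := he a a⁻¹
  rw [mul_inv_cancel, map_one_of_add he] at this
  linear_combination - this

/-- Functions on the smaller discs with constant jumps give an additive function. -/
theorem glue (S : Sheets d E Γ) {v : Fin S.N → Cm d → ℂ} {ε : Γ → ℂ}
    (hv : ∀ i, DifferentiableOn ℂ (v i) (ball 0 2)) (hε : ∀ a b, ε (a * b) = ε a + ε b)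
    (hr : ∀ i j, ∀ z ∈ ball (0 : Cm d) 2, ∀ w ∈ ball (0 : Cm d) 2, ∀ γ : Γ,
      S.σ i z = γ • S.σ j w → v i z = v j w + ε γ) :
    ∃ h : E → ℂ, Add S h ε ∧ ∀ i, ∀ z ∈ ball (0 : Cm d) 2, h (S.σ i z) = v i z := by
  choose γ i z hz he using S.cover
  have hz2 : ∀ e, z e ∈ ball (0 : Cm d) 2 := fun e => by
    rw [mem_ball_zero_iff]; linarith [hz e]
  set h : E → ℂ := fun e => v (i e) (z e) + ε (γ e) with hh
  have key : ∀ (e : E) (a : Γ) (j : Fin S.N) (w : Cm d), w ∈ ball (0 : Cm d) 2 → a • S.σ j w = e →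
      h e = v j w + ε a := by
    intro e a j w hw hwe
    have h1 : S.σ j w = (a⁻¹ * γ e) • S.σ (i e) (z e) := by
      rw [mul_smul, he e, ← hwe, inv_smul_smul]
    rw [hr j (i e) w hw (z e) (hz2 e) _ h1, hε, map_inv_of_add hε]
    simp only [hh]
    ring
  refine ⟨h, ⟨fun j z₀ hz₀ => ?_, fun a e => ?_⟩, fun j w hw => ?_⟩
  · set e := S.σ j z₀ with hedef
    have hw3 : z e ∈ ball (0 : Cm d) 3 := by rw [mem_ball_zero_iff]; linarith [hz e]
    obtain ⟨θ, h1, h2, h3⟩ := S.hol j (i e) z₀ hz₀ (z e) hw3 (γ e) (he e).symm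
    have h4 : ∀ᶠ u in 𝓝 z₀, θ u ∈ ball (0 : Cm d) 2 :=
      h1.continuousAt.eventually (isOpen_ball.mem_nhds (h2.symm ▸ hz2 e))
    have h5 : (fun u => h (S.σ j u)) =ᶠ[𝓝 z₀] fun u => v (i e) (θ u) + ε (γ e) := by
      filter_upwards [h3, h4] with u k1 k2
      exact key _ _ _ _ k2 k1.symm
    have h6 : DifferentiableAt ℂ (v (i e)) (θ z₀) :=
      ((hv (i e)).differentiableAt (isOpen_ball.mem_nhds (h2.symm ▸ hz2 e)))
    have h7 : DifferentiableAt ℂ (fun u => v (i e) (θ u) + ε (γ e)) z₀ :=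
      (DifferentiableAt.comp (g := v (i e)) z₀ h6 h1.differentiableAt).add_const _
    exact (h7.congr_of_eventuallyEq h5).differentiableWithinAt
  · rw [key (a • e) (a * γ e) (i e) (z e) (hz2 e) (by rw [mul_smul, he e]), hε]
    simp only [hh]
    ring
  · rw [key _ 1 j w hw (one_smul _ _), map_one_of_add hε, add_zero]

end sheets

section fam
variable {p d : ℕ} {E Γ : Type} [TopologicalSpace E] [Group Γ] [MulAction Γ E]

/-- Functions on the sheets number `t k`, `t k → t₁`, with jumps which converge up to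
constants. -/
structure Seq (𝓕 : Fam p d E Γ) {ι : Type} (l : Filter ι) (t : ι → Cm p) (t₁ : Cm p)
    (u : ι → Fin 𝓕.N → Cm d → ℂ) (e : ι → Γ → ℂ) (B : Fin 𝓕.N → Fin 𝓕.N → Γ → Cm d → Cm d → ℂ) :
    Prop where
  lim : Tendsto t l (𝓝 t₁)
  hol : ∀ᶠ k in l, ∀ i, DifferentiableOn ℂ (u k i) (ball 0 3)
  add : ∀ᶠ k in l, ∀ a b, e k (a * b) = e k a + e k b
  rel : ∀ i j, ∀ z ∈ ball (0 : Cm d) 3, ∀ w ∈ ball (0 : Cm d) 3, ∀ γ : Γ,
    𝓕.σ i t₁ z = γ • 𝓕.σ j t₁ w → ∀ U : Ultrafilter ι, (U : Filter ι) ≤ l →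
      ∀ z' w' : ι → Cm d, Tendsto z' U (𝓝 z) → Tendsto w' U (𝓝 w) →
        (∀ᶠ k in (U : Filter ι), 𝓕.σ i (t k) (z' k) = γ • 𝓕.σ j (t k) (w' k)) →
          Tendsto (fun k => u k i (z' k) - u k j (w' k) - e k γ) U (𝓝 (B i j γ z w))

theorem Seq.mono {𝓕 : Fam p d E Γ} {ι : Type} {l l' : Filter ι} {t : ι → Cm p} {t₁ : Cm p}
    {u : ι → Fin 𝓕.N → Cm d → ℂ} {e : ι → Γ → ℂ} {B : Fin 𝓕.N → Fin 𝓕.N → Γ → Cm d → Cm d → ℂ}
    (h : Seq 𝓕 l t t₁ u e B) (hl : l' ≤ l) : Seq 𝓕 l' t t₁ u e B where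
  lim := h.lim.mono_left hl
  hol := hl h.hol
  add := hl h.add
  rel i j z hz w hw γ hγ U hU := h.rel i j z hz w hw γ hγ U (hU.trans hl)

/-- `t₁` is a good parameter: the periods in `I` determine the additive functions. -/
def Good (S : Sheets d E Γ) {n : ℕ} (M : Mark Γ n) (I : Set (Fin n)) : Prop :=
  ∀ h c, Add S h c → (∀ l ∈ I, c (M.g l) = 0) → ∀ γ, c γ = 0

/-- A complex additive function on `Γ` is given by its values on the marking. -/
theorem mark_complex {n : ℕ} (M : Mark Γ n) {e : Γ → ℂ} (he : ∀ a b, e (a * b) = e a + e b)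
    (γ : Γ) : e γ = ∑ l, e (M.g l) * (M.φ l γ : ℂ) := by
  have h1 := M.complete (fun γ => (e γ).re) (fun x y => by rw [he, Complex.add_re]) γ
  have h2 := M.complete (fun γ => (e γ).im) (fun x y => by rw [he, Complex.add_im]) γ
  apply Complex.ext
  · rw [h1, Complex.re_sum]
    refine Finset.sum_congr rfl fun l _ => ?_
    simp
  · rw [h2, Complex.im_sum]
    refine Finset.sum_congr rfl fun l _ => ?_
    simp

end fam

end Vale.Agent.P281.H603.K
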