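import Vale.Agent.P281.H603.K.KodN3
import Vale.Agent.P281.H125.Fib.Form
import Vale.Agent.P281.H152.K.AB

/-!
# P281, project T-KN, block KN3 (helper603): the Kodaira dimension of the fibre and the rank of the
Gauss map
-/

open scoped Manifold ContDiff Topology
open Set Filter Metric

set_option linter.unusedSectionVars false

noncomputable section

namespace Vale.Agent.P281.H603.K

open Vale.Agent.P281 Vale.Agent.P281.H64.Gen Vale.Agent.P281.ISO Vale.Agent.P281.H713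
  Vale.Agent.P281.H64.TK Vale.Agent.P272.K Vale.Agent.P281.H603.KodN

/-- the data of `Cov`, from the square -/
theorem cov_of_square {p d : ℕ} {X Y X₁ Y₁ : Type} [TopologicalSpace X] [T2Space X]
    [ChartedSpace (Cm (p + d)) X] [IsManifold 𝓘(ℂ, Cm (p + d)) ω X] [TopologicalSpace Y] [T2Space Y]
    [ChartedSpace (Cm p) Y] [IsManifold 𝓘(ℂ, Cm p) ω Y] [TopologicalSpace X₁] [T2Space X₁]
    [ChartedSpace (Cm (p + d)) X₁] [IsManifold 𝓘(ℂ, Cm (p + d)) ω X₁] [TopologicalSpace Y₁]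
    [T2Space Y₁] [ChartedSpace (Cm p) Y₁] [IsManifold 𝓘(ℂ, Cm p) ω Y₁] {f : X → Y} {f₁ : X₁ → Y₁}
    {u : X₁ → X} {v : Y₁ → Y} {S : Set Y} {S₁ : Set Y₁} {y : Y} {y₁ : Y₁} {F : Type}
    [TopologicalSpace F] [ChartedSpace (Cm d) F] {i : F → X} (hd : 0 < d)
    (hsq : IsSquare (p + d) p d f f₁ u v S S₁ y y₁ i) {E Γ : Type} [TopologicalSpace E]
    [Group Γ] [MulAction Γ E] {𝓕 : Fam p d E Γ} {q : Cm p → E → X₁}
    {χ : OpenPartialHomeomorph Y₁ (Cm p)} {t : Cm p} (ht : t ∈ 𝓕.T)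
    (M : Model (n := p + d) f₁ 𝓕 χ q) (hχ : χ.symm t = y₁) :
    Cov (n := p + d) (𝓕.at t ht) (q t) u i := by
  have htt : t ∈ χ.target := M.sub ht
  have hsrc : χ.symm t ∈ χ.source := χ.map_target htt
  have hχt : χ (χ.symm t) = t := χ.right_inv htt
  have hvy : v y₁ = y := by
    have h1 : y₁ ∈ v ⁻¹' {y} := by rw [hsq.pre]; rfl
    exact h1
  refine ⟨mod0 hsq.modif, M.eq t ht, ?_, ?_, fun x => hsq.fibre.hol x,
    fun x => hsq.fibre.immersion x, ?_, ?_⟩
  · intro j z hz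
    have h1 := M.hol j t ht z hz
    have h2 : ContMDiffAt 𝓘(ℂ, Cm d) 𝓘(ℂ, Cm p × Cm d) ω (fun y : Cm d => (t, y)) z := by
      rw [contMDiffAt_iff_contDiffAt]
      fun_prop
    exact ContMDiffAt.comp (g := fun r : Cm p × Cm d => q r.1 (𝓕.σ j r.1 r.2)) z h1 h2
  · intro j z hz
    obtain ⟨ζ, h1, h2, h3⟩ := M.coord j t ht z hz
    refine ⟨ζ, h1, h2, ?_⟩
    filter_upwards [h3] with x hx
    rintro ⟨e, rfl⟩
    have h4 : χ (f₁ (q t e)) = t := by rw [M.fib t ht e, hχt]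
    rw [h4] at hx
    exact hx
  · intro x z hz
    have h1 : v (f₁ z) = y := by rw [← hsq.comm, hz, hsq.fibre.fibre]
    have h2 : f₁ z ∈ v ⁻¹' {y} := h1
    rw [hsq.pre] at h2
    have h3 : f₁ z = χ.symm t := by rw [hχ]; exact h2
    obtain ⟨e, he⟩ := M.surj z (by rw [h3]; exact hsrc) (by rw [h3, hχt]; exact ht)
    rw [h3, hχt] at he
    exact ⟨e, he⟩
  · -- `i` is onto the fibre of `f`
    intro e
    have h1 : f (u (q t e)) = y := by rw [hsq.comm, M.fib t ht e, hχ, hvy]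
    obtain ⟨E', Γ', tE, t2, sc, gΓ, aΓ, cΓ, 𝓕', q', M', ht', -⟩ :=
      H152.K.ab p d X Y f S hd hsq.hol hsq.proper y hsq.out
    set χ' := chartAt (Cm p) y with hχ'
    have hyy : χ'.symm (χ' y) = y := χ'.left_inv (mem_chart_source _ y)
    have hfd : H125.Fib.FD (p + d) (𝓕'.at _ ht') (q' (χ' y)) i :=
      H125.Fib.fd_of_model hsq.proper M' ht' (by rw [hyy]; exact hsq.out)
        (by rw [hyy]; exact hsq.fibre) hsq.inj
    have : CompactSpace F := hsq.fibre.compact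
    have : ConnectedSpace F := hsq.fibre.connected
    have hr := hfd.range_eq
    have h2 : u (q t e) ∈ range (q' (χ' y)) := by
      obtain ⟨e', he'⟩ := M'.surj (u (q t e)) (by rw [h1]; exact mem_chart_source _ y)
        (by rw [h1]; exact ht')
      rw [h1] at he'
      exact ⟨e', he'⟩
    rw [← hr] at h2
    exact h2

/-- **KN3** -/
theorem kodN : KodNStmt := by
  intro p d r X Y X₁ Y₁ _ _ _ _ _ _ _ _ _ _ _ _ _ _ _ _ f f₁ u v S S₁ y y₁ F _ _ i Δ hd hsq
    hHar hΔ hN hne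
  obtain ⟨E, Γ, tE, t2, sc, gΓ, aΓ, cΓ, 𝓕, q, χ, t, ht, M, hχ, j, z, hz, hG⟩ := hN
  have : CompactSpace F := hsq.fibre.compact
  have : ConnectedSpace F := hsq.fibre.connected
  have : IsManifold 𝓘(ℂ, Cm d) ω F := hsq.fibre.manifold
  have : T2Space F := T2Space.of_injective_continuous hsq.inj hsq.fibre.hol.continuous
  exact (cov_of_square hd hsq ht M hχ).kod hHar hΔ hsq.small (j := j) hz hG hne

end Vale.Agent.P281.H603.K
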