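import Vale.Agent.P281.H349.NF.Lift
import Vale.Agent.P281.H76.FibKod

/-!
# P281, project T-KN, block KN3 (helper603): sections of the canonical bundle, defined off a small
set
-/

open scoped Manifold ContDiff Topology
open Set Filter Metric

set_option linter.unusedSectionVars false

noncomputable section

namespace Vale.Agent.P281.H603.KodN

open Vale.Agent.P281 Vale.Agent.P281.H64 Vale.Agent.P281.H64.Gen Vale.Agent.P281.ISO
  Vale.Agent.P281.H713 Vale.Agent.P281.H308.Bir Vale.Agent.P281.H349.NF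

variable {n d : ℕ} {X F : Type} [TopologicalSpace X] [ChartedSpace (Cm n) X]
  [TopologicalSpace F] [ChartedSpace (Cm d) F] [IsManifold 𝓘(ℂ, Cm n) ω X]
  [IsManifold 𝓘(ℂ, Cm d) ω F]

/-- `s` is a section of the canonical bundle near `x` -/
def LocSec (s : F → ℂ) (x : F) : Prop :=
  ∃ c : F → ℂ, HolV (Cm d) c x ∧ ∀ᶠ z in 𝓝 x, s z = c z * jac (Cm d) (chartAt (Cm d) x) z

/-- sections extend across small sets -/
theorem ext_section [T2Space F] (hHar : HartogsStmt) {N : Set F} (hN : IsSmall2 (Cm d) N)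
    {s₀ : F → ℂ} (hs : ∀ x ∉ N, LocSec (d := d) s₀ x) :
    ∃ s : F → ℂ, IsSection (Cm d) (fun (D : Set F) z g => IsLocalEq (Cm d) D g z) 1 (fun _ => 0) s ∧
      (∀ x, LocSec (d := d) s x) ∧ ∀ x ∉ N, s x = s₀ x := by
  have hNd : Dense Nᶜ := H383.Gen.dense_compl_small (small_of_small2 hN)
  -- the extensions in the charts
  have hext : ∀ x₀ : F, ∃ a : F → ℂ, (∀ x ∈ (chartAt (Cm d) x₀).source, J.HolAt (Cm d) a x) ∧
      ∀ x ∈ (chartAt (Cm d) x₀).source, x ∉ N →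
        a x = s₀ x / jac (Cm d) (chartAt (Cm d) x₀ : F → Cm d) x := by
    intro x₀
    refine hHar d F N (chartAt (Cm d) x₀).source
      (fun x => s₀ x / jac (Cm d) (chartAt (Cm d) x₀ : F → Cm d) x) hN
      (chartAt (Cm d) x₀).open_source fun x hx hxN => ?_
    obtain ⟨c, hc, hce⟩ := hs x hxN
    obtain ⟨R, hR, hRe⟩ := H76.jac_local (E := Cm d) (φ := (chartAt (Cm d) x₀ : F → Cm d))
      (HolV.chart hx)
    have hR0 : R x ≠ 0 := by
      intro h0
      have h1 := hRe.self_of_nhds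
      rw [h0, zero_mul] at h1
      exact jac_chart_ne_zero hx h1
    refine HolV.congr (HolV.div hc hR hR0) ?_
    filter_upwards [hce, hRe, H76.jac_chart_ev (E := Cm d) x] with z h1 h2 h3
    rw [h1, h2, mul_div_mul_right _ _ h3]
  choose a ha hae using hext
  obtain ⟨s, hs1, hs2⟩ := H76.glue_section (E := Cm d) (m := 1) (k := fun _ => 0) hNd
    (s₀ := s₀) (by
      intro x
      refine ⟨∅, fun _ _ => 1, a x, fun i hi => absurd rfl hi, fun i hi => absurd hi (by simp),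
        ha x x (mem_chart_source _ _), ?_⟩
      filter_upwards [(chartAt (Cm d) x).open_source.mem_nhds (mem_chart_source _ _)]
        with z hz hzN
      rw [Finset.prod_empty, mul_one, pow_one, hae x z hz hzN,
        div_mul_cancel₀ _ (jac_chart_ne_zero hz)])
  refine ⟨s, hs1, fun x => ?_, fun x hx => hs2 x hx fun D hD => absurd rfl hD⟩
  obtain ⟨T, g, b, -, -, hb, hbe⟩ := hs1 x
  refine ⟨b, hb, ?_⟩
  filter_upwards [hbe] with z hz
  simp only [pow_zero, Finset.prod_const_one, mul_one, pow_one] at hz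
  exact hz one_ne_zero

/-- **Lemma A** -/
theorem kod_of_ratio [T2Space F] [ConnectedSpace F] (hHar : HartogsStmt) {i : F → X}
    (hi : ∀ t, HolM (Cm d) (Cm n) i t) {Δ : Set X → ℝ} (hΔ : J.IsSNC (Cm n) Δ) {N : Set F}
    (hN : IsSmall2 (Cm d) N) {r : ℕ} {s₀ : Fin (r + 1) → F → ℂ}
    (hs : ∀ b, ∀ x ∉ N, LocSec (d := d) (s₀ b) x) {x₁ : F} (hx₁ : x₁ ∉ N) (h0 : s₀ 0 x₁ ≠ 0)
    (hsurj : Function.Surjective fun (ξ : Cm d) (b : Fin r) =>
      J.dif (Cm d) (fun w => s₀ b.succ w / s₀ 0 w) x₁ ξ)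
    (hne : TZ.S.kodR (Cm n) (Cm d) i Δ ≠ ⊥) :
    ((r : ℕ∞) : WithBot ℕ∞) ≤ TZ.S.kodR (Cm n) (Cm d) i Δ := by
  classical
  choose s hs1 hs2 hs3 using fun b => ext_section hHar hN (hs b)
  -- a multiple of the boundary
  obtain ⟨m, k, z₁, hm, hk, hz₁⟩ : ∃ (m : ℕ) (k : Set X → ℕ) (z₁ : F), 0 < m ∧
      (∀ D, (k D : ℝ) = m * Δ D) ∧ ∀ D, k D ≠ 0 → i z₁ ∉ D := by
    by_contra hcon
    apply hne
    unfold TZ.S.kodR J.kod
    refine le_bot_iff.1 (iSup₂_le ?_)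
    rintro j ⟨m, k, σ, z, hm, hk, -, hz, -, -⟩
    refine absurd ⟨m, k, z, hm, hk, fun D hD => ?_⟩ hcon
    obtain ⟨g, hg, hg0⟩ := hz D hD
    exact (eqI_ne (n := n) (i := i) hg).1 hg0
  have hm' : (m : ℝ) ≠ 0 := by exact_mod_cast hm.ne'
  have hm1 : m - 1 + 1 = m := by omega
  have hkΔ : ∀ D, k D ≠ 0 → Δ D ≠ 0 := by
    intro D h1 h2
    have h3 := hk D
    rw [h2, mul_zero] at h3
    exact h1 (by exact_mod_cast h3)
  have hfin : {D | k D ≠ 0}.Finite := hΔ.1.subset fun D hD => hkΔ D hD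
  obtain ⟨hGo, hGd⟩ := H76.dense_restrict_fin hi (T := {D | k D ≠ 0}) hfin
    (fun D hD => (hΔ.2.1 D (hkΔ D hD)).1) (fun D hD => (hΔ.2.1 D (hkΔ D hD)).2.1)
    fun D hD => ⟨z₁, hz₁ D hD⟩
  -- the point
  have hNd : Dense Nᶜ := H383.Gen.dense_compl_small (small_of_small2 hN)
  have hev₁ : ∀ᶠ z in 𝓝 x₁, z ∉ N := hN.1.isOpen_compl.mem_nhds hx₁
  have hratio₁ : ∀ b : Fin r, dif (Cm d) (fun w => s b.succ w / s 0 w) x₁ =
      dif (Cm d) (fun w => s₀ b.succ w / s₀ 0 w) x₁ := by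
    intro b
    refine dV_congr ?_
    filter_upwards [hev₁] with z hz
    rw [hs3 _ z hz, hs3 _ z hz]
  have hind : LinearIndependent ℂ fun b : Fin r => dif (Cm d) (fun w => s b.succ w / s 0 w) x₁ := by
    simp only [hratio₁]
    exact JB.linearIndependent_of_surjective hsurj
  obtain ⟨y₂, hy₂⟩ := good_point (E := Cm d) (m := 1) (k := fun _ => 0) hs1
    (fun D hD => absurd rfl hD) (by rw [hs3 0 x₁ hx₁]; exact h0) hind
  obtain ⟨V, hV, hVo, hyV⟩ := eventually_nhds_iff.1 hy₂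
  obtain ⟨x₂, hx₂V, hx₂G⟩ := hGd.inter_open_nonempty V hVo ⟨y₂, hyV⟩
  obtain ⟨hg1, hg2, hg3, hg4⟩ := hV x₂ hx₂V
  -- the sections
  set σ : ℕ → F → ℂ := fun b t => s (Fin.ofNat (r + 1) b) t * s 0 t ^ (m - 1) with hσ
  unfold TZ.S.kodR J.kod
  refine le_iSup₂_of_le r ⟨m, k, σ, x₂, hm, hk, fun b t₀ => ?_, fun D hD => ?_, ?_, ?_⟩
    (by exact_mod_cast le_rfl)
  · set T : Finset (Set X) := hfin.toFinset with hT
    have hTm : ∀ D, D ∈ T ↔ k D ≠ 0 := fun D => by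
      rw [hT, Set.Finite.mem_toFinset]
      rfl
    have hch : ∀ D, ∃ e : X → ℂ, D ∈ T → IsLocalEq (Cm n) D e (i t₀) := by
      intro D
      by_cases hDT : D ∈ T
      · obtain ⟨g, hg⟩ := (hΔ.2.1 D (hkΔ D ((hTm D).1 hDT))).2.1 (i t₀)
        exact ⟨g, fun _ => hg⟩
      · exact ⟨0, fun h => absurd h hDT⟩
    choose e he using hch
    have hgT : ∀ D ∈ T, eqI (n := n) i D t₀ (fun t => e D (i t)) := fun D hD =>
      ⟨e D, he D hD, Eventually.of_forall fun _ => rfl⟩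
    obtain ⟨ab, hab, habe⟩ := hs2 (Fin.ofNat (r + 1) b) t₀
    obtain ⟨a0, ha0, ha0e⟩ := hs2 0 t₀
    refine ⟨T, fun D t => e D (i t), fun t => ab t * a0 t ^ (m - 1) * ∏ D ∈ T, e D (i t) ^ k D,
      fun D hD => (hTm D).2 hD, hgT,
      HolV.mul (HolV.mul hab (ha0.pow _)) (HolV.prod fun D hD => (eqI_hol hi (hgT D hD)).pow _),
      ?_⟩
    filter_upwards [habe, ha0e] with t h1 h2 _
    show s (Fin.ofNat (r + 1) b) t * s 0 t ^ (m - 1) * ∏ D ∈ T, e D (i t) ^ k D =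
      ab t * a0 t ^ (m - 1) * (∏ D ∈ T, e D (i t) ^ k D) * jac (Cm d) (chartAt (Cm d) t₀) t ^ m
    rw [h1, h2]
    set J := jac (Cm d) (chartAt (Cm d) t₀) t with hJ
    have h10 : J * J ^ (m - 1) = J ^ m := by rw [← pow_succ', hm1]
    rw [← h10]
    ring
  · exact ⟨fun _ => 1, eqI_one (hΔ.2.1 D (hkΔ D hD)).1 (hx₂G D hD), one_ne_zero⟩
  · show s (Fin.ofNat (r + 1) 0) x₂ * s 0 x₂ ^ (m - 1) ≠ 0
    have h1 : (Fin.ofNat (r + 1) 0) = 0 := rfl
    rw [h1]
    exact mul_ne_zero hg1 (pow_ne_zero _ hg1)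
  · have h1 := JB.surjective_of_linearIndependent hg4
    have hfun : ∀ b : Fin r, (fun t => σ (b + 1) t / σ 0 t) = fun t => s b.succ t / s 0 t := by
      intro b
      funext t
      have e1 : Fin.ofNat (r + 1) ((b : ℕ) + 1) = b.succ := by
        apply Fin.ext
        simp [Fin.ofNat]
      have e2 : Fin.ofNat (r + 1) 0 = 0 := rfl
      show s (Fin.ofNat (r + 1) (b + 1)) t * s 0 t ^ (m - 1) /
        (s (Fin.ofNat (r + 1) 0) t * s 0 t ^ (m - 1)) = _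
      rw [e1, e2]
      by_cases h0 : s 0 t = 0
      · rw [h0, zero_mul, div_zero, div_zero]
      · rw [mul_div_mul_right _ _ (pow_ne_zero _ h0)]
    simp only [hfun]
    exact h1

end Vale.Agent.P281.H603.KodN
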