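import Vale.Agent.P281.H603.K.KodN0
import Vale.Agent.P281.H603.K.Base

/-!
# P281, project T-KN, block KN3 (helper603): the sheets of the covering of `f₁⁻¹(y₁)` as
coordinates of the fibre of `f`
-/

open scoped Manifold ContDiff Topology
open Set Filter Metric

set_option linter.unusedSectionVars false

noncomputable section

namespace Vale.Agent.P281.H603.KodN

open Vale.Agent.P281 Vale.Agent.P281.H64.Gen Vale.Agent.P281.ISO
  Vale.Agent.P281.H713 Vale.Agent.P281.H308.Bir Vale.Agent.P281.H64.TK Vale.Agent.P272.K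
  Vale.Agent.P281.H603.K

/-! ### Linear algebra -/

theorem minor_eq {d : ℕ} {E Γ : Type} [TopologicalSpace E] [Group Γ] [MulAction Γ E]
    {S : Sheets d E Γ} {H : E → Cm d} {j : Fin S.N} {z : Cm d}
    (h : DifferentiableAt ℂ (fun z => H (S.σ j z)) z) :
    S.minor H j z = (fderiv ℂ (fun z => H (S.σ j z)) z).det := by
  rw [Sheets.minor, ContinuousLinearMap.det, ← LinearMap.det_toMatrix']
  congr 1
  ext a k
  rw [Matrix.of_apply, dd, LinearMap.toMatrix'_apply]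
  have h1 := (hasFDerivAt_pi'.1 h.hasFDerivAt a).fderiv
  rw [h1]
  rfl

variable {n d : ℕ} {X X₁ F E Γ : Type} [TopologicalSpace X] [ChartedSpace (Cm n) X]
  [TopologicalSpace X₁] [ChartedSpace (Cm n) X₁] [TopologicalSpace F] [ChartedSpace (Cm d) F]
  [TopologicalSpace E] [Group Γ] [MulAction Γ E]
  [IsManifold 𝓘(ℂ, Cm n) ω X] [IsManifold 𝓘(ℂ, Cm n) ω X₁] [IsManifold 𝓘(ℂ, Cm d) ω F]

/-- The modification `u : X₁ → X`, the covering `Q : E → X₁` of a closed submanifold, and the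
immersion `i : F → X` with the same image as `u ∘ Q`. -/
structure Cov (S : Sheets d E Γ) (Q : E → X₁) (u : X₁ → X) (i : F → X) : Prop where
  mod : Mod0 (n := n) u
  Qeq : ∀ e e', Q e = Q e' ↔ ∃ γ : Γ, γ • e = e'
  hol : ∀ j, ∀ z ∈ ball (0 : Cm d) 3, HolM (Cm d) (Cm n) (fun y => Q (S.σ j y)) z
  coord : ∀ j, ∀ z ∈ ball (0 : Cm d) 3, ∃ ζ : X₁ → Cm d, HolV (Cm n) ζ (Q (S.σ j z)) ∧
    ζ (Q (S.σ j z)) = z ∧ ∀ᶠ x in 𝓝 (Q (S.σ j z)), x ∈ range Q → Q (S.σ j (ζ x)) = x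
  ihol : ∀ t, HolM (Cm d) (Cm n) i t
  imm : ∀ x, Function.Injective (dM (Cm d) (Cm n) i x)
  lift : ∀ x z, u z = i x → z ∈ range Q
  push : ∀ e, ∃ x, i x = u (Q e)

/-- `g` is, near `x`, the coordinate of `F` given by the sheet `j` -/
structure IsCo (n : ℕ) {d : ℕ} {X X₁ F E Γ : Type} [TopologicalSpace X] [ChartedSpace (Cm n) X]
    [TopologicalSpace X₁] [ChartedSpace (Cm n) X₁] [TopologicalSpace F] [ChartedSpace (Cm d) F]
    [TopologicalSpace E] [Group Γ] [MulAction Γ E] (S : Sheets d E Γ) (Q : E → X₁) (u : X₁ → X)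
    (i : F → X) (j : Fin S.N) (g : F → Cm d) (x : F) : Prop where
  hol : HolV (Cm d) g x
  mem : g x ∈ ball (0 : Cm d) 3
  exc : Q (S.σ j (g x)) ∉ excSet (Cm n) u
  eq : ∀ᶠ x' in 𝓝 x, u (Q (S.σ j (g x'))) = i x'

variable {S : Sheets d E Γ} {Q : E → X₁} {u : X₁ → X} {i : F → X}

theorem Cov.eventually (h : Cov (n := n) S Q u i) {j : Fin S.N} {g : F → Cm d} {x : F}
    (hg : IsCo n S Q u i j g x) : ∀ᶠ x' in 𝓝 x, IsCo n S Q u i j g x' := by
  have h1 : ∀ᶠ x' in 𝓝 x, g x' ∈ ball (0 : Cm d) 3 :=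
    hg.hol.continuousAt.eventually (isOpen_ball.mem_nhds hg.mem)
  have h2 : ContinuousAt (fun x' => Q (S.σ j (g x'))) x :=
    ContinuousAt.comp (g := fun y => Q (S.σ j y)) (h.hol j _ hg.mem).continuousAt
      hg.hol.continuousAt
  filter_upwards [hg.hol.eventually, h1, h2.eventually (h.mod.eclosed.isOpen_compl.mem_nhds hg.exc),
    eventually_eventually_nhds.2 hg.eq] with x' a1 a2 a3 a4
  exact ⟨a1, a2, a3, a4⟩

/-- the coordinate with given value -/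
theorem Cov.exists_co (h : Cov (n := n) S Q u i) {x : F} {j : Fin S.N} {z : Cm d}
    (hz : z ∈ ball (0 : Cm d) 3) (hx : u (Q (S.σ j z)) = i x)
    (he : Q (S.σ j z) ∉ excSet (Cm n) u) : ∃ g, IsCo n S Q u i j g x ∧ g x = z := by
  obtain ⟨ζ, h1, h2, h3⟩ := h.coord j z hz
  have hinv : inv0 h.mod (i x) = Q (S.σ j z) := by rw [← hx, inv0_u h.mod he]
  have hgx : ζ (inv0 h.mod (i x)) = z := by rw [hinv, h2]
  have h4 : HolV (Cm n) (fun y => ζ (inv0 h.mod y)) (i x) := by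
    rw [← hx]
    exact holV_of_inv0 h.mod he h1
  have h5 : HolV (Cm d) (fun t => ζ (inv0 h.mod (i t))) x :=
    HolV.comp (h := fun y => ζ (inv0 h.mod y)) h4 (h.ihol x)
  have h6 : Tendsto (fun t => inv0 h.mod (i t)) (𝓝 x) (𝓝 (Q (S.σ j z))) := by
    have h7 := tendsto_inv0 h.mod he
    rw [hx] at h7
    exact h7.comp (h.ihol x).continuousAt
  refine ⟨fun t => ζ (inv0 h.mod (i t)), ⟨h5, ?_, ?_, ?_⟩, hgx⟩
  · show ζ (inv0 h.mod (i x)) ∈ _
    rw [hgx]; exact hz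
  · show Q (S.σ j (ζ (inv0 h.mod (i x)))) ∉ _
    rw [hgx]; exact he
  · filter_upwards [h6.eventually h3] with t ht
    have h8 : u (inv0 h.mod (i t)) = i t := u_inv0 h.mod (i t)
    have h9 : Q (S.σ j (ζ (inv0 h.mod (i t)))) = inv0 h.mod (i t) := ht (h.lift t _ h8)
    show u (Q (S.σ j (ζ (inv0 h.mod (i t))))) = i t
    rw [h9, h8]

theorem Cov.exists_co' (h : Cov (n := n) S Q u i) {x : F} (hx : i x ∉ u '' excSet (Cm n) u) :
    ∃ j g, IsCo n S Q u i j g x := by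
  have h1 : u (inv0 h.mod (i x)) = i x := u_inv0 h.mod _
  obtain ⟨e, he⟩ := h.lift x _ h1
  obtain ⟨γ, j, z, hz, hγ⟩ := S.cover e
  have h2 : Q (S.σ j z) = Q e := (h.Qeq _ _).2 ⟨γ, hγ⟩
  have h3 : u (Q (S.σ j z)) = i x := by rw [h2, he, h1]
  obtain ⟨g, hg, -⟩ := h.exists_co (Sh.mem3 hz) h3 fun hcon => hx ⟨_, hcon, h3⟩
  exact ⟨j, g, hg⟩

/-- two coordinates -/
theorem Cov.compare (h : Cov (n := n) S Q u i) {j j' : Fin S.N} {g g' : F → Cm d} {x : F}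
    (hg : IsCo n S Q u i j g x) (hg' : IsCo n S Q u i j' g' x) :
    ∃ γ : Γ, ∀ᶠ x' in 𝓝 x, γ • S.σ j (g x') = S.σ j' (g' x') := by
  have hex : ∀ᶠ x' in 𝓝 x, ∃ γ : Γ, γ • S.σ j (g x') = S.σ j' (g' x') := by
    filter_upwards [h.eventually hg, h.eventually hg'] with x' h1 h2
    refine (h.Qeq _ _).1 (h.mod.inj _ _ ?_ h1.exc)
    rw [h1.eq.self_of_nhds, h2.eq.self_of_nhds]
  obtain ⟨γ, hγ⟩ := hex.self_of_nhds
  obtain ⟨θ, hθ, hθ0, hθe⟩ := S.hol j' j (g' x) hg'.mem (g x) hg.mem γ hγ.symm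
  refine ⟨γ, ?_⟩
  have h1 : ContinuousAt (fun x' => θ (g' x')) x :=
    ContinuousAt.comp (g := θ) hθ.continuousAt hg'.hol.continuousAt
  have h2 : ∀ᶠ x' in 𝓝 x, θ (g' x') ∈ ball (0 : Cm d) 3 := by
    refine h1.eventually (isOpen_ball.mem_nhds ?_)
    show θ (g' x) ∈ _
    rw [hθ0]
    exact hg.mem
  have h3 : ∀ᶠ x' in 𝓝 x, g x' ∈ ball (0 : Cm d) 3 :=
    hg.hol.continuousAt.eventually (isOpen_ball.mem_nhds hg.mem)
  filter_upwards [hex, hg'.hol.continuousAt.eventually hθe, h2, h3] with x' a1 a2 a3 a4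
  obtain ⟨γ', hγ'⟩ := a1
  have h4 : (γ⁻¹ * γ') • S.σ j (g x') = S.σ j (θ (g' x')) := by
    rw [mul_smul, hγ', a2, inv_smul_smul]
  obtain ⟨h5, -⟩ := S.inj j _ a4 _ a3 _ h4
  rw [inv_mul_eq_one] at h5
  rw [h5]
  exact hγ'

/-- the derivative of a function of the coordinate -/
theorem IsCo.dV_comp {j : Fin S.N} {g : F → Cm d} {x : F} (hg : IsCo n S Q u i j g x)
    {H : E → Cm d} (hH : ContDiffAt ℂ ω (fun z => H (S.σ j z)) (g x)) :
    (dV (Cm d) (fun x' => H (S.σ j (g x'))) x).det =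
      S.minor H j (g x) * (dV (Cm d) g x).det := by
  rw [dV_comp_contDiff (G := fun z => H (S.σ j z)) hH hg.hol, clm_det_comp,
    minor_eq (hH.differentiableAt (by simp))]

theorem addV_contDiffAt {H : E → Cm d} (hH : ∀ a, ∃ b, Add S (fun e => H e a) b) (j : Fin S.N)
    {z : Cm d} (hz : z ∈ ball (0 : Cm d) 3) : ContDiffAt ℂ ω (fun z => H (S.σ j z)) z := by
  rw [contDiffAt_pi]
  intro a
  obtain ⟨b, hb⟩ := hH a
  exact (add_analyticAt hb j hz).contDiffAt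

/-- the form `dH_1 ∧ ⋯ ∧ dH_d` does not depend on the coordinate -/
theorem Cov.det_eq (h : Cov (n := n) S Q u i) {H : E → Cm d}
    (hH : ∀ a, ∃ b, Add S (fun e => H e a) b) {j j' : Fin S.N} {g g' : F → Cm d} {x : F}
    (hg : IsCo n S Q u i j g x) (hg' : IsCo n S Q u i j' g' x) :
    S.minor H j (g x) * (dV (Cm d) g x).det = S.minor H j' (g' x) * (dV (Cm d) g' x).det := by
  obtain ⟨γ, hγ⟩ := h.compare hg hg'
  choose b hb using hH
  have hH' : ∀ a, ∃ b, Add S (fun e => H e a) b := fun a => ⟨b a, hb a⟩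
  have h1 := addV_contDiffAt hH' j hg.mem
  have h2 := addV_contDiffAt hH' j' hg'.mem
  rw [← hg.dV_comp h1, ← hg'.dV_comp h2]
  have h3 : (fun x' => H (S.σ j' (g' x'))) =ᶠ[𝓝 x] fun x' => H (S.σ j (g x')) + fun a => b a γ := by
    filter_upwards [hγ] with x' hx'
    rw [← hx']
    funext a
    exact (hb a).add γ _
  have h4 : dV (Cm d) (fun x' => H (S.σ j (g x')) + fun a => b a γ) x =
      dV (Cm d) (fun x' => H (S.σ j (g x'))) x := by
    rw [dV_comp_contDiff (G := fun z => H (S.σ j z)) h1 hg.hol,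
      dV_comp_contDiff (G := fun z => H (S.σ j z) + fun a => b a γ) (h1.add contDiffAt_const)
        hg.hol, fderiv_add_const]
  rw [dV_congr h3, h4]

/-- the form `dH_1 ∧ ⋯ ∧ dH_d` on the complement of the small set -/
theorem Cov.exists_form (h : Cov (n := n) S Q u i) {H : E → Cm d}
    (hH : ∀ a, ∃ b, Add S (fun e => H e a) b) : ∃ s₀ : F → ℂ, ∀ x j g, IsCo n S Q u i j g x →
      s₀ x = S.minor H j (g x) * (dV (Cm d) g x).det := by
  classical
  have hex : ∀ x, ∃ c : ℂ, ∀ j g, IsCo n S Q u i j g x →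
      c = S.minor H j (g x) * (dV (Cm d) g x).det := by
    intro x
    by_cases hx : ∃ j g, IsCo n S Q u i j g x
    · obtain ⟨j, g, hg⟩ := hx
      exact ⟨_, fun j' g' hg' => h.det_eq hH hg hg'⟩
    · exact ⟨0, fun j g hg => absurd ⟨j, g, hg⟩ hx⟩
  choose s₀ hs₀ using hex
  exact ⟨s₀, hs₀⟩

/-- the coordinates are local isomorphisms -/
theorem Cov.det_ne (h : Cov (n := n) S Q u i) {j : Fin S.N} {g : F → Cm d} {x : F}
    (hg : IsCo n S Q u i j g x) : (dV (Cm d) g x).det ≠ 0 := by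
  refine det_ne_of_inj fun ξ ξ' hξ => h.imm x ?_
  have h1 : HolM (Cm d) (Cm n) (fun y => u (Q (S.σ j y))) (g x) :=
    ContMDiffAt.comp (g x) (h.mod.hol _) (h.hol j _ hg.mem)
  have h2 : mfderiv 𝓘(ℂ, Cm d) 𝓘(ℂ, Cm n) i x =
      (mfderiv 𝓘(ℂ, Cm d) 𝓘(ℂ, Cm n) (fun y => u (Q (S.σ j y))) (g x)).comp
        (mfderiv 𝓘(ℂ, Cm d) 𝓘(ℂ, Cm d) g x) := by
    have h3 := mfderiv_comp x (h1.mdifferentiableAt (by simp)) hg.hol.mdiff
    rw [← h3]
    refine Filter.EventuallyEq.mfderiv_eq ?_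
    filter_upwards [hg.eq] with x' hx'
    exact hx'.symm
  have h4 : ∀ ξ : Cm d, dM (Cm d) (Cm n) i x ξ =
      (mfderiv 𝓘(ℂ, Cm d) 𝓘(ℂ, Cm n) (fun y => u (Q (S.σ j y))) (g x) (dV (Cm d) g x ξ) : Cm n) :=
    fun ξ => congrArg (fun L : Cm d →L[ℂ] Cm n => L ξ) h2
  rw [h4, h4, hξ]

/-- Identity theorem: the points over the exceptional set are nowhere dense. -/
theorem Cov.frequently_exc [ContinuousConstSMul Γ E] [PreconnectedSpace E]
    (h : Cov (n := n) S Q u i) {e₁ : E} (he₁ : Q e₁ ∉ excSet (Cm n) u) {j : Fin S.N} {z : Cm d}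
    (hz : z ∈ ball (0 : Cm d) 3) : ∃ᶠ y in 𝓝 z, Q (S.σ j y) ∉ excSet (Cm n) u := by
  by_contra hcon
  rw [Filter.not_frequently] at hcon
  simp only [not_not] at hcon
  set A : Set E := {e | ∀ᶠ e' in 𝓝 e, Q e' ∈ excSet (Cm n) u} with hA
  have hQγ : ∀ (γ : Γ) e, Q (γ • e) = Q e := fun γ e => ((h.Qeq e (γ • e)).2 ⟨γ, rfl⟩).symm
  have hopen : IsOpen A := by
    rw [isOpen_iff_mem_nhds]
    intro e he
    exact eventually_eventually_nhds.2 he
  have hmemA : ∀ (γ : Γ) (j : Fin S.N) (w : Cm d), w ∈ ball (0 : Cm d) 3 →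
      (γ • S.σ j w ∈ A ↔ ∀ᶠ y in 𝓝 w, Q (S.σ j y) ∈ excSet (Cm n) u) := by
    intro γ j w hw
    show (∀ᶠ e' in 𝓝 (γ • S.σ j w), Q e' ∈ excSet (Cm n) u) ↔ _
    rw [← Sh.map_nhds_smul S γ j hw, eventually_map]
    simp only [hQγ]
  have hclosed : IsClosed A := by
    rw [← isOpen_compl_iff, isOpen_iff_mem_nhds]
    intro e he
    obtain ⟨γ, j, w, hw, rfl⟩ := S.cover e
    have hw3 : w ∈ ball (0 : Cm d) 3 := Sh.mem3 hw
    obtain ⟨R, hR, hRe⟩ := exc_local (z₀ := Q (S.σ j w)) h.mod.hol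
    have hc := (h.hol j w hw3).continuousAt
    have h1 : ∀ᶠ y in 𝓝 w, AnalyticAt ℂ (fun y => R (Q (S.σ j y))) y := by
      have h2 : HolV (Cm d) (fun y => R (Q (S.σ j y))) w := HolV.comp hR (h.hol j w hw3)
      have h3 : ContDiffAt ℂ ω (fun y => R (Q (S.σ j y))) w := contMDiffAt_iff_contDiffAt.1 h2
      exact h3.analyticAt.eventually_analyticAt
    obtain ⟨ε, hε, hball⟩ := Metric.eventually_nhds_iff_ball.1
      ((h1.and (hc.eventually hRe)).and (isOpen_ball.mem_nhds hw3))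
    rw [← Sh.map_nhds_smul S γ j hw3, Filter.mem_map]
    filter_upwards [isOpen_ball.mem_nhds (mem_ball_self hε)] with y hy hyA
    refine he ?_
    have hy3 := (hball y hy).2
    have hyA' : γ • S.σ j y ∈ A := hyA
    rw [hmemA γ j y hy3] at hyA'
    rw [hmemA γ j w hw3]
    have h4 : AnalyticOnNhd ℂ (fun y => R (Q (S.σ j y))) (ball w ε) := fun v hv => (hball v hv).1.1
    have h5 : (fun y => R (Q (S.σ j y))) =ᶠ[𝓝 y] fun _ => (0 : ℂ) := by
      filter_upwards [hyA', isOpen_ball.mem_nhds hy] with v hv1 hv2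
      exact (hball v hv2).1.2.1 hv1
    have h6 := h4.eqOn_of_preconnected_of_eventuallyEq (g := fun _ => (0 : ℂ))
      (fun _ _ => analyticAt_const) (convex_ball w ε).isPreconnected hy h5
    filter_upwards [isOpen_ball.mem_nhds (mem_ball_self hε)] with v hv
    exact (hball v hv).1.2.2 (h6 hv)
  have hmem : S.σ j z ∈ A := by
    have h1 := (hmemA 1 j z hz).2 hcon
    rwa [one_smul] at h1
  have huniv : A = univ := IsClopen.eq_univ ⟨hclosed, hopen⟩ ⟨_, hmem⟩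
  have he : e₁ ∈ A := huniv ▸ mem_univ e₁
  exact he₁ (Eventually.self_of_nhds (p := fun e' => Q e' ∈ excSet (Cm n) u) he)

end Vale.Agent.P281.H603.KodN
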