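import Vale.Agent.P281.H603.K.KodN1
import Vale.Agent.P281.H603.K.KodN2
import Vale.Agent.P281.H64.TK.SpecN

/-!
# P281, project T-KN, block KN3 (helper603): the forms `dH_1 ∧ ⋯ ∧ dH_d` on the fibre
-/

open scoped Manifold ContDiff Topology
open Set Filter Metric

set_option linter.unusedSectionVars false

noncomputable section

namespace Vale.Agent.P281.H603.KodN

open Vale.Agent.P281 Vale.Agent.P281.H64.Gen Vale.Agent.P281.ISO
  Vale.Agent.P281.H713 Vale.Agent.P281.H308.Bir Vale.Agent.P281.H64.TK Vale.Agent.P272.K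
  Vale.Agent.P281.H603.K

section sheets
variable {d : ℕ} {E Γ : Type} [TopologicalSpace E] [Group Γ] [MulAction Γ E] {S : Sheets d E Γ}

theorem minor_contDiffAt {H : E → Cm d} (hH : ∀ a, ∃ b, Add S (fun e => H e a) b) (j : Fin S.N)
    {z : Cm d} (hz : z ∈ ball (0 : Cm d) 3) : ContDiffAt ℂ ω (S.minor H j) z := by
  have h1 : ContDiffAt ℂ ω (fun y => (fderiv ℂ (fun z => H (S.σ j z)) y).det) z :=
    ContDiffAt.comp z (g := fun A : Cm d →L[ℂ] Cm d => A.det) contDiff_det.contDiffAt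
      ((addV_contDiffAt hH j hz).fderiv_right (by simp))
  refine h1.congr_of_eventuallyEq ?_
  filter_upwards [isOpen_ball.mem_nhds hz] with y hy
  exact minor_eq ((addV_contDiffAt hH j hy).differentiableAt (by simp))

/-- the condition on the Gauss map is open -/
theorem gauss_eventually {r : ℕ} {H : Fin (r + 1) → E → Cm d}
    (hH : ∀ k a, ∃ b, Add S (fun e => H k e a) b) {j : Fin S.N} {z : Cm d}
    (hz : z ∈ ball (0 : Cm d) 3) (h0 : S.minor (H 0) j z ≠ 0)
    (hs : Function.Surjective fun (ξ : Cm d) (k : Fin r) =>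
      fderiv ℂ (fun u => S.minor (H k.succ) j u / S.minor (H 0) j u) z ξ) :
    ∀ᶠ y in 𝓝 z, S.minor (H 0) j y ≠ 0 ∧ Function.Surjective fun (ξ : Cm d) (k : Fin r) =>
      fderiv ℂ (fun u => S.minor (H k.succ) j u / S.minor (H 0) j u) y ξ := by
  have h1 : ∀ k : Fin r, ContDiffAt ℂ ω
      (fun u => S.minor (H k.succ) j u / S.minor (H 0) j u) z := fun k =>
    (minor_contDiffAt (hH k.succ) j hz).div (minor_contDiffAt (hH 0) j hz) h0
  have h2 : ContinuousAt (fun y => fun k : Fin r =>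
      fderiv ℂ (fun u => S.minor (H k.succ) j u / S.minor (H 0) j u) y) z :=
    continuousAt_pi.2 fun k => ((h1 k).fderiv_right (m := ω) (by simp)).continuousAt
  have h3 : LinearIndependent ℂ fun k : Fin r =>
      fderiv ℂ (fun u => S.minor (H k.succ) j u / S.minor (H 0) j u) z :=
    JB.linearIndependent_of_surjective hs
  have h4 := h2.eventually (isOpen_setOfPred_linearIndependent.mem_nhds h3)
  filter_upwards [h4, (minor_contDiffAt (hH 0) j hz).continuousAt.eventually_ne h0] with y h5 h6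
  exact ⟨h6, JB.surjective_of_linearIndependent h5⟩

end sheets

variable {n d : ℕ} {X X₁ F E Γ : Type} [TopologicalSpace X] [ChartedSpace (Cm n) X]
  [TopologicalSpace X₁] [ChartedSpace (Cm n) X₁] [TopologicalSpace F] [ChartedSpace (Cm d) F]
  [TopologicalSpace E] [Group Γ] [MulAction Γ E]
  [IsManifold 𝓘(ℂ, Cm n) ω X] [IsManifold 𝓘(ℂ, Cm n) ω X₁] [IsManifold 𝓘(ℂ, Cm d) ω F]
variable {S : Sheets d E Γ} {Q : E → X₁} {u : X₁ → X} {i : F → X}

/-- the forms are sections of the canonical bundle -/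
theorem Cov.locSec (h : Cov (n := n) S Q u i) {H : E → Cm d}
    (hH : ∀ a, ∃ b, Add S (fun e => H e a) b) {s₀ : F → ℂ}
    (hs₀ : ∀ x j g, IsCo n S Q u i j g x → s₀ x = S.minor H j (g x) * (dV (Cm d) g x).det)
    {x : F} (hx : i x ∉ u '' excSet (Cm n) u) : LocSec (d := d) s₀ x := by
  obtain ⟨j, g, hg⟩ := h.exists_co' hx
  obtain ⟨R, hR, hRe⟩ := H76.jac_local (E := Cm d) hg.hol
  refine ⟨fun x' => S.minor H j (g x') * R x',
    HolV.mul (HolV.comp_contDiff (G := S.minor H j) (minor_contDiffAt hH j hg.mem) hg.hol) hR, ?_⟩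
  filter_upwards [h.eventually hg, hRe] with x' h1 h2
  have h3 : (dV (Cm d) g x').det = R x' * jac (Cm d) (chartAt (Cm d) x) x' := h2
  rw [hs₀ x' j g h1, h3, mul_assoc]

/-- the Gauss map -/
theorem Cov.gauss (h : Cov (n := n) S Q u i) {r : ℕ} {H : Fin (r + 1) → E → Cm d}
    (hH : ∀ k a, ∃ b, Add S (fun e => H k e a) b) {s₀ : Fin (r + 1) → F → ℂ}
    (hs₀ : ∀ k x j g, IsCo n S Q u i j g x →
      s₀ k x = S.minor (H k) j (g x) * (dV (Cm d) g x).det)
    {x : F} {j : Fin S.N} {g : F → Cm d} (hg : IsCo n S Q u i j g x)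
    (h0 : S.minor (H 0) j (g x) ≠ 0) (hs : Function.Surjective fun (ξ : Cm d) (k : Fin r) =>
      fderiv ℂ (fun u => S.minor (H k.succ) j u / S.minor (H 0) j u) (g x) ξ) :
    s₀ 0 x ≠ 0 ∧ Function.Surjective fun (ξ : Cm d) (k : Fin r) =>
      J.dif (Cm d) (fun w => s₀ k.succ w / s₀ 0 w) x ξ := by
  have hD := h.det_ne hg
  refine ⟨?_, ?_⟩
  · rw [hs₀ 0 x j g hg]
    exact mul_ne_zero h0 hD
  · have h1 : ∀ k : Fin r, ContDiffAt ℂ ω
        (fun u => S.minor (H k.succ) j u / S.minor (H 0) j u) (g x) := fun k =>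
      (minor_contDiffAt (hH k.succ) j hg.mem).div (minor_contDiffAt (hH 0) j hg.mem) h0
    have h2 : ∀ (k : Fin r) (ξ : Cm d), J.dif (Cm d) (fun w => s₀ k.succ w / s₀ 0 w) x ξ =
        fderiv ℂ (fun u => S.minor (H k.succ) j u / S.minor (H 0) j u) (g x)
          (dV (Cm d) g x ξ) := by
      intro k ξ
      have h3 : (fun w => s₀ k.succ w / s₀ 0 w) =ᶠ[𝓝 x]
          fun w => (fun u => S.minor (H k.succ) j u / S.minor (H 0) j u) (g w) := by
        filter_upwards [h.eventually hg] with w hw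
        rw [hs₀ _ w j g hw, hs₀ _ w j g hw, mul_div_mul_right _ _ (h.det_ne hw)]
      have h4 : dV (Cm d) (fun w => s₀ k.succ w / s₀ 0 w) x =
          (fderiv ℂ (fun u => S.minor (H k.succ) j u / S.minor (H 0) j u) (g x)).comp
            (dV (Cm d) g x) := by
        rw [dV_congr h3, dV_comp_contDiff (h1 k) hg.hol]
      exact congrArg (fun L : Cm d →L[ℂ] ℂ => L ξ) h4
    intro y
    obtain ⟨ξ, hξ⟩ := hs y
    obtain ⟨ξ', rfl⟩ := (bij_of_det_ne hD).2 ξ
    refine ⟨ξ', ?_⟩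
    rw [← hξ]
    funext k
    exact h2 k ξ'

/-- the Kodaira dimension and the rank of the Gauss map -/
theorem Cov.kod [T2Space F] [ConnectedSpace F] [ContinuousConstSMul Γ E] [PreconnectedSpace E]
    (h : Cov (n := n) S Q u i) (hHar : HartogsStmt) {Δ : Set X → ℝ} (hΔ : J.IsSNC (Cm n) Δ)
    (hN : IsSmall2 (Cm d) (i ⁻¹' (u '' excSet (Cm n) u))) {r : ℕ} {j : Fin S.N} {z : Cm d}
    (hz : z ∈ ball (0 : Cm d) 3) (hG : S.GaussAt r j z)
    (hne : TZ.S.kodR (Cm n) (Cm d) i Δ ≠ ⊥) :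
    ((r : ℕ∞) : WithBot ℕ∞) ≤ TZ.S.kodR (Cm n) (Cm d) i Δ := by
  obtain ⟨H, hH, h0, hs⟩ := hG
  choose s₀ hs₀ using fun k => h.exists_form (hH k)
  -- a point of `E` which is not over the exceptional set
  have hNd : Dense (i ⁻¹' (u '' excSet (Cm n) u))ᶜ :=
    H383.Gen.dense_compl_small (small_of_small2 hN)
  obtain ⟨x₀, hx₀⟩ := hNd.nonempty
  have hx₀' : i x₀ ∉ u '' excSet (Cm n) u := hx₀
  obtain ⟨j₁, g₁, hg₁⟩ := h.exists_co' hx₀'
  have hfr := h.frequently_exc hg₁.exc (j := j) hz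
  obtain ⟨y, hy, ⟨hy0, hys⟩, hy3⟩ := (hfr.and_eventually
    ((gauss_eventually hH hz h0 hs).and (isOpen_ball.mem_nhds hz))).exists
  obtain ⟨x, hx⟩ := h.push (S.σ j y)
  obtain ⟨g, hg, hgx⟩ := h.exists_co hy3 hx.symm hy
  rw [← hgx] at hy0 hys
  obtain ⟨hA, hB⟩ := h.gauss hH hs₀ hg hy0 hys
  refine kod_of_ratio hHar h.ihol hΔ hN (s₀ := s₀)
    (fun k x hx => h.locSec (hH k) (hs₀ k) hx) (x₁ := x) ?_ hA hB hne
  show ¬ i x ∈ u '' excSet (Cm n) u
  rw [hx, h.mod.mem_image]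
  exact hy

end Vale.Agent.P281.H603.KodN
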