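import Vale.Agent.P281.H64.TK.Spec

/-!
# P281, theorem T-K, block D (helper603): properness of the action, transitions
-/

open Set Filter Metric
open scoped Topology

namespace Vale.Agent.P281.H603.K

open Vale.Agent.P281.H64.TK
open Vale.Agent.P281.H64 (Cm Mark)

section sheets
variable {d : ℕ} {E Γ : Type} [TopologicalSpace E] [Group Γ] [MulAction Γ E]

/-- A sequence which converges to a point of a sheet comes from the sheet. -/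
theorem exists_lift (S : Sheets d E Γ) (i : Fin S.N) {z : Cm d} (hz : z ∈ ball (0 : Cm d) 3)
    {ι : Type*} {l : Filter ι} {x : ι → E} (hx : Tendsto x l (𝓝 (S.σ i z))) :
    ∃ z' : ι → Cm d, Tendsto z' l (𝓝 z) ∧ ∀ᶠ k in l, x k = S.σ i (z' k) := by
  classical
  set inv : E → Cm d := Function.invFunOn (S.σ i) (ball (0 : Cm d) 3) with hinv
  have key : ∀ V ∈ 𝓝 z, ∀ᶠ k in l, inv (x k) ∈ V ∧ S.σ i (inv (x k)) = x k := by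
    intro V hV
    have h1 : V ∩ ball (0 : Cm d) 3 ∈ 𝓝 z := inter_mem hV (isOpen_ball.mem_nhds hz)
    have h2 : S.σ i '' (V ∩ ball (0 : Cm d) 3) ∈ 𝓝 (S.σ i z) := by
      rw [← S.map_nhds i z hz]
      exact image_mem_map h1
    filter_upwards [hx h2] with k hk
    obtain ⟨z'', ⟨h3, h4⟩, h5⟩ := hk
    have h6 : x k ∈ S.σ i '' ball (0 : Cm d) 3 := ⟨z'', h4, h5⟩
    have h7 : S.σ i (inv (x k)) = x k := Function.invFunOn_eq h6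
    have h8 : inv (x k) ∈ ball (0 : Cm d) 3 := Function.invFunOn_mem h6
    have h9 := (S.inj i _ h8 _ h4 1 (by rw [one_smul, h7, h5])).2
    exact ⟨h9 ▸ h3, h7⟩
  refine ⟨fun k => inv (x k), fun V hV => ?_, ?_⟩
  · show ∀ᶠ k in l, inv (x k) ∈ V
    filter_upwards [key V hV] with k hk using hk.1
  · filter_upwards [key univ univ_mem] with k hk using hk.2.symm

variable [ContinuousConstSMul Γ E]

/-- The action is proper. -/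
theorem proper (S : Sheets d E Γ) {ι : Type*} {l : Filter ι} [l.NeBot] {x : ι → E} {γ : ι → Γ}
    {x₀ e : E} (hx : Tendsto x l (𝓝 x₀)) (he : Tendsto (fun k => γ k • x k) l (𝓝 e)) :
    ∃ a : Γ, (∀ᶠ k in l, γ k = a) ∧ e = a • x₀ := by
  obtain ⟨a, i, z, hz, hx0⟩ := S.cover x₀
  have hz3 : z ∈ ball (0 : Cm d) 3 := by rw [mem_ball_zero_iff]; linarith
  have h1 : Tendsto (fun k => a⁻¹ • x k) l (𝓝 (S.σ i z)) := by
    have := hx.const_smul a⁻¹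
    rwa [← hx0, inv_smul_smul] at this
  obtain ⟨z', hz', hxz⟩ := exists_lift S i hz3 h1
  have h2 : ∀ᶠ k in l, ‖z' k‖ ≤ 2 := by
    filter_upwards [hz'.norm.eventually (ge_mem_nhds (show ‖z‖ < 2 by linarith))] with k hk
      using hk
  have h3 : e ∈ {e : E | ∃ (γ : Γ) (z : Cm d), ‖z‖ ≤ 2 ∧ γ • S.σ i z = e} := by
    refine (S.closed i 2 (by norm_num)).mem_of_tendsto he ?_
    filter_upwards [hxz, h2] with k hk hk2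
    refine ⟨γ k * a, z' k, hk2, ?_⟩
    rw [← hk, smul_smul, mul_assoc, mul_inv_cancel, mul_one]
  obtain ⟨b, z'', hz'', he'⟩ := h3
  have hz''3 : z'' ∈ ball (0 : Cm d) 3 := by rw [mem_ball_zero_iff]; linarith
  have h4 : Tendsto (fun k => b⁻¹ • γ k • x k) l (𝓝 (S.σ i z'')) := by
    have := he.const_smul b⁻¹
    rwa [← he', inv_smul_smul] at this
  obtain ⟨u, hu, hxu⟩ := exists_lift S i hz''3 h4
  have h5 : ∀ᶠ k in l, z' k ∈ ball (0 : Cm d) 3 := hz'.eventually (isOpen_ball.mem_nhds hz3)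
  have h6 : ∀ᶠ k in l, u k ∈ ball (0 : Cm d) 3 := hu.eventually (isOpen_ball.mem_nhds hz''3)
  have h7 : ∀ᶠ k in l, γ k = b * a⁻¹ ∧ z' k = u k := by
    filter_upwards [hxz, hxu, h5, h6] with k k1 k2 k3 k4
    have h8 : (b⁻¹ * γ k * a) • S.σ i (z' k) = S.σ i (u k) := by
      rw [← k1, ← k2, smul_smul, smul_smul]
      congr 1
      group
    obtain ⟨h9, h10⟩ := S.inj i _ k3 _ k4 _ h8
    refine ⟨?_, h10⟩
    calc γ k = b * (b⁻¹ * γ k * a) * a⁻¹ := by group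
      _ = b * a⁻¹ := by rw [h9, mul_one]
  have h8 : z = z'' := tendsto_nhds_unique (hz'.congr' (h7.mono fun k hk => hk.2)) hu
  refine ⟨b * a⁻¹, h7.mono fun k hk => hk.1, ?_⟩
  rw [← he', ← hx0, smul_smul, mul_assoc, inv_mul_cancel, mul_one, h8]

end sheets

section fam
variable {p d : ℕ} {E Γ : Type} [TopologicalSpace E] [Group Γ] [MulAction Γ E]

/-- Joint continuity of the sheets. -/
theorem tendsto_sheet (𝓕 : Fam p d E Γ) (i : Fin 𝓕.N) {t₁ : Cm p} (ht₁ : t₁ ∈ 𝓕.T) {z₀ : Cm d}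
    (hz₀ : z₀ ∈ ball (0 : Cm d) 3) :
    Tendsto (fun q : Cm p × Cm d => 𝓕.σ i q.1 q.2) (𝓝 (t₁, z₀)) (𝓝 (𝓕.σ i t₁ z₀)) := by
  have h1 : Tendsto (fun q : Cm p × Cm d => (q.1, 𝓕.σ i q.1 q.2)) (𝓝 (t₁, z₀))
      (𝓝 (t₁, 𝓕.σ i t₁ z₀)) := (𝓕.map_nhds i t₁ ht₁ z₀ hz₀).le
  exact (continuous_snd.tendsto _).comp h1

/-- The transition maps, with all their properties. -/
theorem exists_trans (𝓕 : Fam p d E Γ) {i j : Fin 𝓕.N} {t₁ : Cm p} (ht₁ : t₁ ∈ 𝓕.T) {z₀ w₀ : Cm d}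
    (hz₀ : z₀ ∈ ball (0 : Cm d) 3) (hw₀ : w₀ ∈ ball (0 : Cm d) 3) {γ : Γ}
    (h : 𝓕.σ i t₁ z₀ = γ • 𝓕.σ j t₁ w₀) :
    ∃ θ : Cm p × Cm d → Cm d, AnalyticAt ℂ θ (t₁, z₀) ∧ θ (t₁, z₀) = w₀ ∧
      ∀ᶠ q in 𝓝 (t₁, z₀), q.1 ∈ 𝓕.T ∧ q.2 ∈ ball (0 : Cm d) 3 ∧ θ q ∈ ball (0 : Cm d) 3 ∧
        𝓕.σ i q.1 q.2 = γ • 𝓕.σ j q.1 (θ q) ∧
        ∀ w ∈ ball (0 : Cm d) 3, ∀ a : Γ, 𝓕.σ i q.1 q.2 = a • 𝓕.σ j q.1 w → a = γ ∧ w = θ q := by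
  obtain ⟨θ, h1, h2, h3⟩ := 𝓕.hol i j t₁ ht₁ z₀ hz₀ w₀ hw₀ γ h
  refine ⟨θ, h1, h2, ?_⟩
  have h4 : ∀ᶠ q : Cm p × Cm d in 𝓝 (t₁, z₀), q.1 ∈ 𝓕.T :=
    (continuous_fst.tendsto (t₁, z₀)).eventually (𝓕.isOpen.mem_nhds ht₁)
  have h5 : ∀ᶠ q : Cm p × Cm d in 𝓝 (t₁, z₀), q.2 ∈ ball (0 : Cm d) 3 :=
    (continuous_snd.tendsto (t₁, z₀)).eventually (isOpen_ball.mem_nhds hz₀)
  have h6 : ∀ᶠ q : Cm p × Cm d in 𝓝 (t₁, z₀), θ q ∈ ball (0 : Cm d) 3 :=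
    h1.continuousAt.eventually (isOpen_ball.mem_nhds (h2.symm ▸ hw₀))
  filter_upwards [h3, h4, h5, h6] with q k1 k2 k3 k4
  refine ⟨k2, k3, k4, k1, fun w hw a ha => ?_⟩
  have h7 : (a⁻¹ * γ) • 𝓕.σ j q.1 (θ q) = 𝓕.σ j q.1 w := by
    rw [mul_smul, ← k1, ha, inv_smul_smul]
  obtain ⟨h8, h9⟩ := 𝓕.inj j q.1 k2 _ k4 _ hw _ h7
  refine ⟨?_, h9.symm⟩
  calc a = a * (a⁻¹ * γ) := by rw [h8, mul_one]
    _ = γ := by group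

variable [ContinuousConstSMul Γ E]

/-- The action is proper, in the family. -/
theorem fam_proper (𝓕 : Fam p d E Γ) {ι : Type*} {l : Filter ι} [l.NeBot] {t : ι → Cm p}
    {t₁ : Cm p} (ht₁ : t₁ ∈ 𝓕.T) (ht : Tendsto t l (𝓝 t₁)) {i j : Fin 𝓕.N} {z w : ι → Cm d}
    {γ : ι → Γ} {z₀ w₀ : Cm d} (hz₀ : z₀ ∈ ball (0 : Cm d) 3) (hw₀ : w₀ ∈ ball (0 : Cm d) 3)
    (hz : Tendsto z l (𝓝 z₀)) (hw : Tendsto w l (𝓝 w₀))
    (h : ∀ᶠ k in l, 𝓕.σ i (t k) (z k) = γ k • 𝓕.σ j (t k) (w k)) :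
    ∃ a : Γ, (∀ᶠ k in l, γ k = a) ∧ 𝓕.σ i t₁ z₀ = a • 𝓕.σ j t₁ w₀ := by
  have h1 : Tendsto (fun k => 𝓕.σ j (t k) (w k)) l (𝓝 (𝓕.σ j t₁ w₀)) :=
    (tendsto_sheet 𝓕 j ht₁ hw₀).comp (ht.prodMk_nhds hw)
  have h2 : Tendsto (fun k => 𝓕.σ i (t k) (z k)) l (𝓝 (𝓕.σ i t₁ z₀)) :=
    (tendsto_sheet 𝓕 i ht₁ hz₀).comp (ht.prodMk_nhds hz)
  exact proper (𝓕.at t₁ ht₁) h1 (h2.congr' h)

end fam

end Vale.Agent.P281.H603.K
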